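import Vale.Agent.P015.Rich

/-! No bounded-step injective walk on Gaussian primes; compactness. -/

namespace Vale.Agent.P015

open Finset
open scoped Classical

theorem small_of_zero {w : GI} (hw : Irreducible w) {p X : ℕ} {r : ℤ} (hp : p.Prime) (hX : p ≤ X)
    (hr : (p : ℤ) ∣ r * r + 1) (h : ((w.re + r * w.im : ℤ) : ZMod p) = 0) : Small X w := by
  rw [ZMod.intCast_zmod_eq_zero_iff_dvd] at h
  have h1 : (p : ℤ) ∣ w.norm := by
    have : w.norm = (w.re + r * w.im) * (w.re - r * w.im) + (r * r + 1) * (w.im * w.im) := by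
      rw [Zsqrtd.norm_def]; ring
    rw [this]
    exact dvd_add (h.mul_right _) (hr.mul_right _)
  obtain ⟨k, hk⟩ := h1
  have h2 : w * star w = (p : GI) * (k : GI) := by
    rw [← Zsqrtd.norm_eq_mul_conj, hk]; push_cast; rfl
  have hn : (p : GI).norm = p * p := by simp
  have h3 : w ∣ (p : GI) := by
    rcases hw.prime.dvd_or_dvd (h2 ▸ dvd_mul_right w (star w)) with h4 | ⟨u, hu⟩
    · exact h4
    · have h5 : star w = (p : GI) * u := by
        apply mul_left_cancel₀ hw.ne_zero
        rw [h2, hu]; ring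
      have h6 : w = (p : GI) * star u := by
        have := congrArg star h5
        simpa using this
      rcases hw.isUnit_or_isUnit h6 with h7 | h7
      · rw [Zsqrtd.isUnit_iff_norm_isUnit, hn, Int.isUnit_iff] at h7
        have : (2 : ℤ) ≤ p := by exact_mod_cast hp.two_le
        rcases h7 with h7 | h7 <;> nlinarith
      · rw [h6]; exact (IsUnit.mul_right_dvd h7).2 dvd_rfl
  have h4 : w.norm ≤ p * p := by
    obtain ⟨v, hv⟩ := h3
    refine Int.le_of_dvd ?_ ⟨v.norm, by rw [← Zsqrtd.norm_mul, ← hv, hn]⟩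
    have : (0 : ℤ) < p := by exact_mod_cast hp.pos
    positivity
  rw [Zsqrtd.norm_def] at h4
  have h5 : (p : ℤ) ≤ X := by exact_mod_cast hX
  have h6 : (0 : ℤ) ≤ p := Nat.cast_nonneg p
  constructor
  · exact (abs_le_of_sq_le_sq (by nlinarith [mul_self_nonneg w.im]) h6).trans h5
  · exact (abs_le_of_sq_le_sq (by nlinarith [mul_self_nonneg w.re]) h6).trans h5

theorem no_prime_walk (D : ℕ) (z : ℕ → GI) (hz : Walk D z) (hp : ∀ n, Irreducible (z n)) :
    False := by
  obtain ⟨X, hX⟩ := no_walk richMany (D + 1) (by omega)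
  obtain ⟨N, hN⟩ := ((box X).finite_toSet.preimage hz.inj.injOn).bddAbove
  refine hX (fun t => z (t + (N + 1))) ⟨fun n => ?_, fun a b e => by simpa using hz.inj e⟩
    fun p r h1 h2 h3 t h4 => ?_
  · have := hz.step (n + (N + 1))
    rw [show n + 1 + (N + 1) = n + (N + 1) + 1 by ring]
    unfold Small at this ⊢
    push_cast
    exact ⟨by linarith [this.1], by linarith [this.2]⟩
  · have := hN (mem_box (small_of_zero (hp _) h1 h2 h3 h4))
    omega

theorem small_of_dist {D : ℝ} {v w : GI} (h : dist (v : ℂ) (w : ℂ) ≤ D) : Small ⌈D⌉₊ (w - v) := by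
  rw [dist_comm, dist_eq_norm, ← GaussianInt.toComplex_sub] at h
  have h1 := (Complex.abs_re_le_norm _).trans (h.trans (Nat.le_ceil D))
  have h2 := (Complex.abs_im_le_norm _).trans (h.trans (Nat.le_ceil D))
  rw [← GaussianInt.intCast_re] at h1
  rw [← GaussianInt.intCast_im] at h2
  exact ⟨by exact_mod_cast h1, by exact_mod_cast h2⟩

theorem walk_small {V : Type} (G : SimpleGraph V) (f : V → GI) (D : ℕ)
    (hG : ∀ a b, G.Adj a b → Small D (f b - f a)) {a b : V} (p : G.Walk a b) (i : ℕ) :
    Small (D * i) (f (p.getVert i) - f a) := by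
  induction i with
  | zero => simp [Small]
  | succ i ih =>
    have h1 : Small D (f (p.getVert (i + 1)) - f (p.getVert i)) := by
      by_cases hi : i < p.length
      · exact hG _ _ (p.adj_getVert_succ hi)
      · rw [p.getVert_of_length_le (by omega), p.getVert_of_length_le (by omega)]
        simp [Small]
    unfold Small at *
    simp only [Zsqrtd.re_sub, Zsqrtd.im_sub, abs_le] at *
    push_cast at *
    refine ⟨⟨?_, ?_⟩, ?_, ?_⟩ <;> linarith [h1.1.1, h1.1.2, h1.2.1, h1.2.2, ih.1.1, ih.1.2, ih.2.1, ih.2.2]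

/-- compactness: an infinite component contains an infinite injective path -/
theorem exists_ray {V : Type} (G : SimpleGraph V) (f : V → GI) (hf : Function.Injective f) (D : ℕ)
    (hG : ∀ a b, G.Adj a b → Small D (f b - f a)) (a : V) (ha : {b | G.Reachable a b}.Infinite) :
    ∃ z : ℕ → V, Function.Injective z ∧ ∀ n, G.Adj (z n) (z (n + 1)) := by
  have fin : ∀ n, {b : V | Small (D * n) (f b - f a)}.Finite := fun n =>
    ((box (D * n)).finite_toSet.preimage (f := fun b => f b - f a)
      (fun x _ y _ e => hf (sub_left_injective e))).subset fun b hb => mem_box hb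
  have long : ∀ n, ∃ (b : V) (p : G.Walk a b), p.IsPath ∧ n < p.length := by
    intro n
    obtain ⟨b, ⟨p⟩, hb⟩ := ha.exists_notMem_finite (fin n)
    refine ⟨b, p.bypass, p.bypass_isPath, not_le.1 fun h => hb ?_⟩
    have := walk_small G f D hG p.bypass n
    rwa [SimpleGraph.Walk.getVert_of_length_le _ h] at this
  choose b p hp hl using long
  have lim : ∀ k, ∃ v, ∀ᶠ n in (Filter.hyperfilter ℕ : Filter ℕ), (p n).getVert k = v := by
    intro k
    obtain ⟨v, -, hv⟩ := Ultrafilter.eq_pure_of_finite_mem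
      (f := (Filter.hyperfilter ℕ).map fun n => (p n).getVert k) (fin k)
      (Filter.mem_map.2 (Filter.univ_mem' fun n => walk_small G f D hG (p n) k))
    refine ⟨v, ?_⟩
    have : {v} ∈ (Filter.hyperfilter ℕ).map fun n => (p n).getVert k := by rw [hv]; simp
    exact this
  choose z hz using lim
  have big : ∀ k, ∀ᶠ n in (Filter.hyperfilter ℕ : Filter ℕ), k ≤ n := fun k =>
    Nat.hyperfilter_le_atTop (Filter.eventually_ge_atTop k)
  refine ⟨z, fun i j e => ?_, fun k => ?_⟩
  · obtain ⟨n, h1, h2, h3⟩ := ((hz i).and ((hz j).and (big (i + j)))).exists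
    have := hl n
    exact (hp n).getVert_injOn (by simp; omega) (by simp; omega) (h1.trans (e.trans h2.symm))
  · obtain ⟨n, h1, h2, h3⟩ := ((hz k).and ((hz (k + 1)).and (big k))).exists
    rw [← h1, ← h2]
    exact (p n).adj_getVert_succ (h3.trans_lt (hl n))

end Vale.Agent.P015
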