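import Vale.Agent.P015.PM

/-! Walks in the Gaussian integers: the difference set of a window is large. -/

namespace Vale.Agent.P015

open Finset

abbrev GI := GaussianInt

def dot (u w : GI) : ℤ := u.re * w.re + u.im * w.im
def det (u w : GI) : ℤ := u.re * w.im - u.im * w.re
def Small (r : ℕ) (w : GI) : Prop := |w.re| ≤ r ∧ |w.im| ≤ r

noncomputable def box (r : ℕ) : Finset GI :=
  (Icc (-(r : ℤ)) r ×ˢ Icc (-(r : ℤ)) r).image (fun x => (⟨x.1, x.2⟩ : GI))

theorem mem_box {r : ℕ} {w : GI} (h : Small r w) : w ∈ box r :=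
  Finset.mem_image.2 ⟨(w.re, w.im), Finset.mem_product.2
    ⟨Finset.mem_Icc.2 (abs_le.1 h.1), Finset.mem_Icc.2 (abs_le.1 h.2)⟩, rfl⟩

theorem card_box (r : ℕ) : (box r).card ≤ (2 * r + 1) ^ 2 := by
  refine Finset.card_image_le.trans ?_
  rw [Finset.card_product, Int.card_Icc]
  have : ((r : ℤ) + 1 - -(r : ℤ)).toNat = 2 * r + 1 := by omega
  rw [this, sq]

theorem Small.mono {r s : ℕ} {w : GI} (h : Small r w) (hrs : r ≤ s) : Small s w := by
  have : (r : ℤ) ≤ s := by exact_mod_cast hrs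
  exact ⟨h.1.trans this, h.2.trans this⟩

theorem Small.neg {r : ℕ} {w : GI} (h : Small r w) : Small r (-w) := by
  simpa [Small] using h

theorem Small.add {r s : ℕ} {v w : GI} (h : Small r v) (h' : Small s w) :
    Small (r + s) (v + w) := by
  obtain ⟨a, b⟩ := h; obtain ⟨c, d⟩ := h'
  rw [abs_le] at a b c d
  constructor <;> rw [abs_le] <;> simp <;> constructor <;> linarith

theorem small_zero (r : ℕ) : Small r 0 := by simp [Small]

structure Walk (D : ℕ) (z : ℕ → GI) : Prop where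
  step : ∀ n, Small D (z (n + 1) - z n)
  inj : Function.Injective z

theorem Walk.disp {D : ℕ} {z : ℕ → GI} (h : Walk D z) (t s : ℕ) :
    Small (D * s) (z (t + s) - z t) := by
  induction s with
  | zero => simpa using small_zero 0
  | succ s ih =>
    have := (h.step (t + s)).add ih
    rw [sub_add_sub_cancel] at this
    rw [Nat.mul_succ, add_comm (D * s)]; exact this

theorem Walk.disp' {D : ℕ} {z : ℕ → GI} (h : Walk D z) {t s a b : ℕ} (ha : t ≤ a)
    (ha' : a ≤ t + s) (hb : t ≤ b) (hb' : b ≤ t + s) : Small (D * s) (z a - z b) := by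
  rcases le_total a b with hab | hab
  · obtain ⟨c, rfl⟩ := Nat.exists_eq_add_of_le hab
    have := (h.disp a c).neg
    rw [neg_sub] at this
    exact this.mono (Nat.mul_le_mul_left _ (by omega))
  · obtain ⟨c, rfl⟩ := Nat.exists_eq_add_of_le hab
    exact (h.disp b c).mono (Nat.mul_le_mul_left _ (by omega))

theorem exists_subpath {D : ℕ} {z : ℕ → GI} (h : Walk D z) {t s a b : ℕ} (ha : t ≤ a)
    (ha' : a ≤ t + s) (hb : t ≤ b) (hb' : b ≤ t + s) :
    ∃ (n : ℕ) (γ : ℕ → GI), γ 0 = z a ∧ γ n = z b ∧ (∀ i, Small D (γ (i + 1) - γ i)) ∧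
      ∀ i ≤ n, ∃ c, t ≤ c ∧ c ≤ t + s ∧ γ i = z c := by
  rcases le_total a b with hab | hab
  · refine ⟨b - a, fun i => z (a + i), rfl, by simp [hab], fun i => h.step _, fun i hi => ?_⟩
    exact ⟨a + i, by omega, by omega, rfl⟩
  · refine ⟨a - b, fun i => z (a - i), rfl, ?_, fun i => ?_, fun i hi => ?_⟩
    · show z (a - (a - b)) = z b
      congr 1; omega
    · show Small D (z (a - (i + 1)) - z (a - i))
      rcases Nat.lt_or_ge i a with hi | hi
      · have := (h.step (a - (i + 1))).neg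
        rw [neg_sub] at this
        have e : a - (i + 1) + 1 = a - i := by omega
        rwa [e] at this
      · have e : a - (i + 1) = a - i := by omega
        rw [e, sub_self]; exact small_zero _
    · exact ⟨a - i, by omega, by omega, rfl⟩

theorem exists_ext {D : ℕ} (γ : ℕ → GI) (n : ℕ) (hn : 0 < n)
    (hs : ∀ i, Small D (γ (i + 1) - γ i)) :
    ∃ Γ : ℕ → GI, (∀ i, Small D (Γ (i + 1) - Γ i)) ∧
      (∀ i, ∃ s ≤ n, ∃ q : ℕ, Γ i = γ s + (q : GI) * (γ n - γ 0)) ∧
      ∀ T : ℕ, Γ (T * n) = γ 0 + (T : GI) * (γ n - γ 0) := by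
  refine ⟨fun i => γ (i % n) + ((i / n : ℕ) : GI) * (γ n - γ 0), fun i => ?_, fun i => ?_,
    fun T => ?_⟩
  · have hlt := Nat.mod_lt i hn
    have hdm := Nat.div_add_mod i n
    rcases Nat.lt_or_ge (i % n + 1) n with h | h
    · have e1 : (i + 1) % n = i % n + 1 := by
        conv_lhs => rw [← hdm, add_assoc, Nat.mul_add_mod, Nat.mod_eq_of_lt h]
      have e2 : (i + 1) / n = i / n := by
        conv_lhs => rw [← hdm, add_assoc, Nat.mul_add_div hn, Nat.div_eq_of_lt h, add_zero]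
      simp only [e1, e2, add_sub_add_right_eq_sub]; exact hs _
    · have e0 : i % n + 1 = n := by omega
      have e : i + 1 = n * (i / n + 1) := by rw [mul_add]; omega
      have e1 : (i + 1) % n = 0 := by rw [e, Nat.mul_mod_right]
      have e2 : (i + 1) / n = i / n + 1 := by rw [e, Nat.mul_div_cancel_left _ hn]
      simp only [e1, e2]
      have := hs (i % n)
      rw [e0] at this
      convert this using 1
      push_cast; ring
  · exact ⟨i % n, (Nat.mod_lt i hn).le, i / n, rfl⟩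
  · simp [Nat.mul_div_cancel _ hn]

theorem abs_dot_le {D : ℕ} (u : GI) {v : GI} (h : Small D v) :
    |dot u v| ≤ (|u.re| + |u.im|) * D := by
  unfold dot
  calc _ ≤ |u.re * v.re| + |u.im * v.im| := abs_add_le _ _
    _ = |u.re| * |v.re| + |u.im| * |v.im| := by rw [abs_mul, abs_mul]
    _ ≤ |u.re| * D + |u.im| * D := by gcongr; exacts [h.1, h.2]
    _ = _ := by ring

theorem abs_det_le {D : ℕ} (u : GI) {v : GI} (h : Small D v) :
    |det u v| ≤ (|u.re| + |u.im|) * D := by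
  unfold det
  calc _ ≤ |u.re * v.im| + |u.im * v.re| := abs_sub _ _
    _ = |u.re| * |v.im| + |u.im| * |v.re| := by rw [abs_mul, abs_mul]
    _ ≤ |u.re| * D + |u.im| * D := by gcongr; exacts [h.2, h.1]
    _ = _ := by ring

theorem exists_bound (h : ℕ → ℤ) (m : ℕ) : ∃ B : ℕ, ∀ j ≤ m, |h j| ≤ B := by
  refine ⟨∑ j ∈ range (m + 1), (h j).natAbs, fun j hj => ?_⟩
  rw [Int.abs_eq_natAbs]
  exact_mod_cast Finset.single_le_sum (f := fun j => (h j).natAbs) (fun _ _ => Nat.zero_le _)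
    (Finset.mem_range.2 (by omega))

theorem small_of_dot_det {D : ℕ} {u F : GI} (hu : u ≠ 0)
    (h1 : |dot u F| ≤ 2 * ((|u.re| + |u.im|) * D)) (h2 : |det u F| ≤ 2 * ((|u.re| + |u.im|) * D)) :
    Small (4 * D) F := by
  have hN : 0 < u.re * u.re + u.im * u.im := by
    have := GaussianInt.norm_pos.2 hu
    rw [Zsqrtd.norm_def] at this; linarith
  have hs : (|u.re| + |u.im|) * (|u.re| + |u.im|) ≤ 2 * (u.re * u.re + u.im * u.im) := by
    nlinarith [sq_nonneg (|u.re| - |u.im|), abs_mul_abs_self u.re, abs_mul_abs_self u.im]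
  have hD : (0 : ℤ) ≤ D := Int.natCast_nonneg D
  have key : ∀ x p q : ℤ, (u.re * u.re + u.im * u.im) * x = p * dot u F + q * det u F →
      |p| + |q| = |u.re| + |u.im| → |x| ≤ ((4 * D : ℕ) : ℤ) := by
    intro x p q e hpq
    have : (u.re * u.re + u.im * u.im) * |x| ≤ (u.re * u.re + u.im * u.im) * (4 * D) := by
      calc _ = |p * dot u F + q * det u F| := by rw [← e, abs_mul, abs_of_pos hN]
        _ ≤ |p| * |dot u F| + |q| * |det u F| := by
          refine (abs_add_le _ _).trans ?_; rw [abs_mul, abs_mul]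
        _ ≤ |p| * (2 * ((|u.re| + |u.im|) * D)) + |q| * (2 * ((|u.re| + |u.im|) * D)) := by
          gcongr
        _ = 2 * D * ((|u.re| + |u.im|) * (|u.re| + |u.im|)) := by rw [← add_mul, hpq]; ring
        _ ≤ 2 * D * (2 * (u.re * u.re + u.im * u.im)) := by gcongr
        _ = _ := by ring
    push_cast
    exact le_of_mul_le_mul_left this hN
  exact ⟨key _ u.re (-u.im) (by unfold dot det; ring) (by simp),
    key _ u.im u.re (by unfold dot det; ring) (by ring)⟩

theorem torus_cover {D : ℕ} (γ1 γ2 : ℕ → GI) (n1 n2 : ℕ)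
    (hs1 : ∀ i, Small D (γ1 (i + 1) - γ1 i)) (hs2 : ∀ i, Small D (γ2 (i + 1) - γ2 i))
    (hA : 0 < det (γ1 n1 - γ1 0) (γ2 n2 - γ2 0)) (w : GI) :
    ∃ i ≤ n1, ∃ j ≤ n2, ∃ e, Small (4 * D) e ∧ ∃ α β : ℤ,
      w = γ1 i - γ2 j - e + (α : GI) * (γ1 n1 - γ1 0) + (β : GI) * (γ2 n2 - γ2 0) := by
  set u1 := γ1 n1 - γ1 0 with hu1
  set u2 := γ2 n2 - γ2 0 with hu2
  have hu : u1 ≠ 0 := by rintro h; rw [h] at hA; simp [det] at hA
  have hn1 : 0 < n1 := by
    rcases Nat.eq_zero_or_pos n1 with h | h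
    · exact absurd (by rw [hu1, h, sub_self]) hu
    · exact h
  have hn2 : 0 < n2 := by
    rcases Nat.eq_zero_or_pos n2 with h | h
    · have : u2 = 0 := by rw [hu2, h, sub_self]
      rw [this] at hA; simp [det] at hA
    · exact h
  obtain ⟨Γ1, a1, b1, c1⟩ := exists_ext γ1 n1 hn1 hs1
  obtain ⟨Γ2, a2, b2, c2⟩ := exists_ext γ2 n2 hn2 hs2
  rw [← hu1] at b1 c1
  rw [← hu2] at b2 c2
  have hN : 0 < dot u1 u1 := by
    have := GaussianInt.norm_pos.2 hu
    rw [Zsqrtd.norm_def] at this; unfold dot; linarith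
  obtain ⟨B1, hB1⟩ := exists_bound (fun s => det u1 (γ1 s - γ2 0 - w)) n1
  obtain ⟨B2, hB2⟩ := exists_bound
    (fun j => dot u1 (γ1 0 - Γ2 j - w + ((B1 + 1 : ℕ) : GI) * u2)) (2 * (B1 + 1) * n2)
  set F : ℕ → ℕ → GI := fun i j =>
    Γ1 i - Γ2 j - w - ((B2 + 1 : ℕ) : GI) * u1 + ((B1 + 1 : ℕ) : GI) * u2 with hF
  have dF1 : ∀ i j, F (i + 1) j - F i j = Γ1 (i + 1) - Γ1 i := fun i j => by simp only [hF]; ring
  have dF2 : ∀ i j, F i (j + 1) - F i j = -(Γ2 (j + 1) - Γ2 j) := fun i j => by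
    simp only [hF]; ring
  have dsub : ∀ v v', dot u1 v - dot u1 v' = dot u1 (v - v') := fun v v' => by
    simp [dot]; ring
  have dsub' : ∀ v v', -det u1 v - -det u1 v' = det u1 (-(v - v')) := fun v v' => by
    simp [det]; ring
  obtain ⟨i, j, h1, h2⟩ := discrete_PM (fun i j => dot u1 (F i j)) (fun i j => - det u1 (F i j))
    ((|u1.re| + |u1.im|) * D) (2 * (B2 + 1) * n1) (2 * (B1 + 1) * n2)
    (fun i j => by rw [dsub, dF1]; exact abs_dot_le _ (a1 i))
    (fun i j => by rw [dsub, dF2]; exact abs_dot_le _ (a2 j).neg)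
    (fun i j => by rw [dsub', dF1]; exact abs_det_le _ (a1 i).neg)
    (fun i j => by rw [dsub', dF2]; exact abs_det_le _ (a2 j).neg.neg)
    (fun j hj => by
      have := abs_le.1 (hB2 j hj)
      have c := c1 0
      simp only [zero_mul, Nat.cast_zero, add_zero] at c
      have e : dot u1 (F 0 j) = dot u1 (γ1 0 - Γ2 j - w + ((B1 + 1 : ℕ) : GI) * u2)
          - (B2 + 1) * dot u1 u1 := by
        simp only [hF, c]; simp [dot]; ring
      rw [e]; nlinarith)
    (fun j hj => by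
      have := abs_le.1 (hB2 j hj)
      have e : dot u1 (F (2 * (B2 + 1) * n1) j) =
          dot u1 (γ1 0 - Γ2 j - w + ((B1 + 1 : ℕ) : GI) * u2) + (B2 + 1) * dot u1 u1 := by
        simp only [hF, c1]; simp [dot]; ring
      rw [e]; nlinarith)
    (fun i _ => by
      obtain ⟨s, hs, q, e1⟩ := b1 i
      have := abs_le.1 (hB1 s hs)
      have c := c2 0
      simp only [zero_mul, Nat.cast_zero, add_zero] at c
      have e : det u1 (F i 0) = det u1 (γ1 s - γ2 0 - w) + (B1 + 1) * det u1 u2 := by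
        simp only [hF, c, e1]; simp [det]; ring
      rw [e]; nlinarith)
    (fun i _ => by
      obtain ⟨s, hs, q, e1⟩ := b1 i
      have := abs_le.1 (hB1 s hs)
      have e : det u1 (F i (2 * (B1 + 1) * n2)) =
          det u1 (γ1 s - γ2 0 - w) - (B1 + 1) * det u1 u2 := by
        simp only [hF, c2, e1]; simp [det]; ring
      rw [e]; nlinarith)
  rw [abs_neg] at h2
  obtain ⟨s, hs, q, e1⟩ := b1 i
  obtain ⟨s', hs', q', e2⟩ := b2 j
  refine ⟨s, hs, s', hs', F i j, small_of_dot_det hu h1 h2, (q : ℤ) - (B2 + 1),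
    (B1 + 1) - (q' : ℤ), ?_⟩
  simp only [hF, e1, e2]; push_cast; ring

theorem index_le (u1 u2 : GI) (hA : 0 < det u1 u2) (R : Finset GI)
    (h : ∀ w : GI, ∃ r ∈ R, ∃ α β : ℤ, w = r + (α : GI) * u1 + (β : GI) * u2) :
    det u1 u2 ≤ R.card := by
  classical
  let M : Matrix (Fin 2) (Fin 2) ℤ := !![u1.re, u2.re; u1.im, u2.im]
  have hM : M.det = det u1 u2 := by simp [M, Matrix.det_fin_two, det]; ring
  let φ := Matrix.toLin' M
  have hinj : Function.Injective φ := by
    rw [← LinearMap.ker_eq_bot, Matrix.ker_toLin'_eq_bot_iff]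
    intro v hv
    exact Matrix.eq_zero_of_mulVec_eq_zero (by rw [hM]; exact hA.ne') hv
  have h1 := Submodule.natAbs_det_equiv (LinearMap.range φ) (LinearEquiv.ofInjective φ hinj)
  have h2 : (LinearMap.range φ).subtype ∘ₗ
      AddMonoidHom.toIntLinearMap ((LinearEquiv.ofInjective φ hinj : (Fin 2 → ℤ) →+ _)) = φ := by
    ext v; rfl
  rw [h2, LinearMap.det_toLin', hM] at h1
  have h3 : Nat.card ((Fin 2 → ℤ) ⧸ LinearMap.range φ) ≤ Nat.card R := by
    refine Nat.card_le_card_of_surjective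
      (fun r : R => (Submodule.Quotient.mk ![r.1.re, r.1.im] : (Fin 2 → ℤ) ⧸ LinearMap.range φ)) ?_
    intro x
    obtain ⟨v, rfl⟩ := Submodule.Quotient.mk_surjective _ x
    obtain ⟨r, hr, α, β, e⟩ := h ⟨v 0, v 1⟩
    refine ⟨⟨r, hr⟩, ?_⟩
    rw [Submodule.Quotient.eq]
    refine ⟨![-α, -β], ?_⟩
    have e1 := congrArg Zsqrtd.re e
    have e2 := congrArg Zsqrtd.im e
    simp at e1 e2
    ext k
    fin_cases k <;> simp [φ, M, Matrix.mulVec, dotProduct, Fin.sum_univ_two] <;> linarith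
  rw [← h1, Nat.card_eq_fintype_card, Fintype.card_coe] at h3
  have := Int.natCast_natAbs (det u1 u2)
  rw [abs_of_pos hA] at this
  rw [← this]; exact_mod_cast h3

end Vale.Agent.P015
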