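import Vale.Agent.P015.Geom1

/-! Families of split primes and the frame attached to a window of a walk. -/

namespace Vale.Agent.P015

open Finset
open scoped Classical

structure Fam (ι : Type) where
  p : ι → ℕ
  r : ι → ℤ
  prime : ∀ j, (p j).Prime
  inj : Function.Injective p
  root : ∀ j, (p j : ℤ) ∣ r j * r j + 1

namespace Fam
variable {ι : Type} (F : Fam ι)

instance instNeZero (j : ι) : NeZero (F.p j) := ⟨(F.prime j).ne_zero⟩

def ψ (j : ι) (w : GI) : ZMod (F.p j) := ((w.re + F.r j * w.im : ℤ) : ZMod (F.p j))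

theorem ψ_sub (j : ι) (v w : GI) : F.ψ j (v - w) = F.ψ j v - F.ψ j w := by
  simp [ψ]; ring

theorem ψ_add (j : ι) (v w : GI) : F.ψ j (v + w) = F.ψ j v + F.ψ j w := by
  simp [ψ]; ring

theorem ψ_eq_zero (j : ι) (w : GI) : F.ψ j w = 0 ↔ (F.p j : ℤ) ∣ w.re + F.r j * w.im :=
  ZMod.intCast_zmod_eq_zero_iff_dvd _ _

noncomputable def Ψ (I : Finset ι) (w : GI) : (j : ι) → ZMod (F.p j) :=
  fun j => if j ∈ I then F.ψ j w else 0

theorem Ψ_eq_iff (I : Finset ι) (v w : GI) : F.Ψ I v = F.Ψ I w ↔ ∀ j ∈ I, F.ψ j v = F.ψ j w := by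
  constructor
  · intro h j hj
    have := congrFun h j
    simpa [Ψ, hj] using this
  · intro h
    funext j
    by_cases hj : j ∈ I
    · simp [Ψ, hj, h j hj]
    · simp [Ψ, hj]

theorem prod_dvd (I : Finset ι) (x : ℤ) (h : ∀ j ∈ I, (F.p j : ℤ) ∣ x) :
    ((∏ j ∈ I, F.p j : ℕ) : ℤ) ∣ x := by
  push_cast
  refine Finset.prod_dvd_of_coprime ?_ h
  intro i _ j _ hij
  exact Nat.isCoprime_iff_coprime.2
    ((Nat.coprime_primes (F.prime i) (F.prime j)).2 fun e => hij (F.inj e))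

theorem dvd_det {j : ι} {v w : GI} (hv : F.ψ j v = 0) (hw : F.ψ j w = 0) :
    (F.p j : ℤ) ∣ det v w := by
  rw [ψ_eq_zero] at hv hw
  have : det v w = (v.re + F.r j * v.im) * w.im - (w.re + F.r j * w.im) * v.im := by
    unfold det; ring
  rw [this]; exact dvd_sub (hv.mul_right _) (hw.mul_right _)

theorem dvd_dot {j : ι} {v : GI} (hv : F.ψ j v = 0) : (F.p j : ℤ) ∣ dot v v := by
  rw [ψ_eq_zero] at hv
  have : dot v v = (v.re + F.r j * v.im) * (v.re - F.r j * v.im) +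
      (F.r j * F.r j + 1) * (v.im * v.im) := by
    unfold dot; ring
  rw [this]; exact dvd_add (hv.mul_right _) ((F.root j).mul_right _)

theorem dvd_of_smul {j : ι} {m : ℤ} {u : GI} (h : F.ψ j ((m : GI) * u) = 0) (hu : F.ψ j u ≠ 0) :
    (F.p j : ℤ) ∣ m := by
  rw [ψ_eq_zero] at h
  rw [Ne, ψ_eq_zero] at hu
  have e : ((m : GI) * u).re + F.r j * ((m : GI) * u).im = m * (u.re + F.r j * u.im) := by
    simp; ring
  rw [e] at h
  exact ((Nat.prime_iff_prime_int.1 (F.prime j)).dvd_or_dvd h).resolve_right hu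

end Fam

theorem dot_self_pos {u : GI} (hu : u ≠ 0) : 0 < dot u u := by
  have := GaussianInt.norm_pos.2 hu
  rw [Zsqrtd.norm_def] at this; unfold dot; linarith

theorem dot_sq_add (u w : GI) : dot u w ^ 2 + det u w ^ 2 = dot u u * dot w w := by
  unfold dot det; ring

theorem dot_det_id (u g w : GI) : dot u g * det u w - det u g * dot u w = dot u u * det g w := by
  unfold dot det; ring

theorem exists_dir (Sh : GI → Prop) (h0 : ∀ g, Sh g → g ≠ 0)
    (hpar : ∀ g g', Sh g → Sh g' → det g g' = 0) :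
    ∃ u : GI, u ≠ 0 ∧ ∀ g, Sh g → ∃ m : ℤ, g = (m : GI) * u := by
  by_cases h : ∃ g, Sh g
  · obtain ⟨g0, hg0⟩ := h
    have hpos : 0 < Int.gcd g0.re g0.im := by
      rw [Int.gcd_pos_iff]
      by_contra hc
      push Not at hc
      exact h0 g0 hg0 (Zsqrtd.ext hc.1 hc.2)
    obtain ⟨d, a, b, hd, hab, e1, e2⟩ := Int.exists_gcd_one' hpos
    obtain ⟨x, y, hxy⟩ := Int.isCoprime_iff_gcd_eq_one.2 hab
    refine ⟨⟨a, b⟩, ?_, fun g hg => ⟨x * g.re + y * g.im, ?_⟩⟩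
    · intro e
      have e3 : a = 0 := congrArg Zsqrtd.re e
      have e4 : b = 0 := congrArg Zsqrtd.im e
      rw [e3, e4] at hxy; simp at hxy
    · have h1 := hpar g g0 hg hg0
      unfold det at h1
      rw [e1, e2] at h1
      have hd' : (d : ℤ) ≠ 0 := by exact_mod_cast hd.ne'
      have h2 : g.re * b - g.im * a = 0 := by
        have : (g.re * b - g.im * a) * d = 0 := by linarith
        exact (mul_eq_zero.1 this).resolve_right hd'
      apply Zsqrtd.ext
      · simp only [Zsqrtd.re_mul, Zsqrtd.re_intCast, Zsqrtd.im_intCast]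
        linear_combination (-g.re) * hxy + y * h2
      · simp only [Zsqrtd.im_mul, Zsqrtd.re_intCast, Zsqrtd.im_intCast]
        linear_combination (-g.im) * hxy - x * h2
  · exact ⟨1, one_ne_zero, fun g hg => absurd ⟨g, hg⟩ h⟩

/-- difference set of the window `[τ, τ+S]` -/
noncomputable def diffs (z : ℕ → GI) (τ S : ℕ) : Finset GI :=
  (Icc τ (τ + S) ×ˢ Icc τ (τ + S)).image (fun x => z x.1 - z x.2)

theorem mem_diffs {z : ℕ → GI} {τ S : ℕ} {w : GI} : w ∈ diffs z τ S ↔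
    ∃ a b, τ ≤ a ∧ a ≤ τ + S ∧ τ ≤ b ∧ b ≤ τ + S ∧ z a - z b = w := by
  simp only [diffs, Finset.mem_image, Finset.mem_product, Finset.mem_Icc, Prod.exists]
  constructor
  · rintro ⟨a, b, ⟨⟨h1, h2⟩, h3, h4⟩, e⟩; exact ⟨a, b, h1, h2, h3, h4, e⟩
  · rintro ⟨a, b, h1, h2, h3, h4, e⟩; exact ⟨a, b, ⟨⟨h1, h2⟩, h3, h4⟩, e⟩

theorem diffs_nonempty (z : ℕ → GI) (τ S : ℕ) : (diffs z τ S).Nonempty :=
  ⟨_, mem_diffs.2 ⟨τ, τ, le_rfl, by omega, le_rfl, by omega, rfl⟩⟩

theorem neg_mem_diffs {z : ℕ → GI} {τ S : ℕ} {w : GI} (h : w ∈ diffs z τ S) :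
    -w ∈ diffs z τ S := by
  obtain ⟨a, b, h1, h2, h3, h4, e⟩ := mem_diffs.1 h
  exact mem_diffs.2 ⟨b, a, h3, h4, h1, h2, by rw [← e, neg_sub]⟩

theorem card_le_of_sub {D : ℕ} {z : ℕ → GI} (hz : Walk D z) (τ S : ℕ) (T : Finset GI)
    (h : ∀ a, τ ≤ a → a ≤ τ + S → z a - z τ ∈ T) : S + 1 ≤ T.card := by
  have : (Icc τ (τ + S)).card ≤ T.card := by
    refine Finset.card_le_card_of_injOn (fun a => z a - z τ) (fun a ha => ?_) ?_
    · have := Finset.mem_Icc.1 (Finset.mem_coe.1 ha)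
      exact h a this.1 this.2
    · intro a _ b _ e
      exact hz.inj (sub_left_injective e)
  rw [Nat.card_Icc] at this; omega

/-- the frame of a window -/
theorem exists_frame {D : ℕ} {z : ℕ → GI} (hz : Walk D z) (hD : 1 ≤ D) (τ S Q : ℕ)
    (hS : (4 * Q + 1) ^ 2 ≤ S) :
    ∃ (u : GI) (a : ℤ), u ≠ 0 ∧ (Q : ℤ) < a ∧ a ≤ 2 * dot u u ∧ dot u u ≤ 2 * a ^ 2 ∧
      a ≤ 82 * D ^ 2 * (diffs z τ S).card ∧
      ∀ w ∈ diffs z τ S, |dot u w| ≤ dot u u ∧ |det u w| ≤ a := by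
  obtain ⟨u, hu, hmax⟩ := Finset.exists_max_image (diffs z τ S) (fun w => dot w w)
    (diffs_nonempty z τ S)
  obtain ⟨u2, hu2, hmax2⟩ := Finset.exists_max_image (diffs z τ S) (fun w => det u w)
    (diffs_nonempty z τ S)
  set r : ℕ := max u.re.natAbs u.im.natAbs with hr
  have hr1 : |u.re| ≤ r := by rw [Int.abs_eq_natAbs]; exact_mod_cast le_max_left _ _
  have hr2 : |u.im| ≤ r := by rw [Int.abs_eq_natAbs]; exact_mod_cast le_max_right _ _
  have hρ1 : dot u u ≤ 2 * (r : ℤ) ^ 2 := by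
    unfold dot
    nlinarith [abs_mul_abs_self u.re, abs_mul_abs_self u.im, abs_nonneg u.re, abs_nonneg u.im]
  have hρ2 : (r : ℤ) ^ 2 ≤ dot u u := by
    unfold dot
    rcases le_total u.re.natAbs u.im.natAbs with h | h
    · rw [hr, max_eq_right h, Int.natCast_natAbs, sq_abs]; nlinarith
    · rw [hr, max_eq_left h, Int.natCast_natAbs, sq_abs]; nlinarith
  have hsm : ∀ w ∈ diffs z τ S, Small (2 * r) w := by
    intro w hw
    have := hmax w hw
    unfold dot at this hρ1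
    have hr0 : (0 : ℤ) ≤ 2 * r := by positivity
    constructor <;> push_cast <;> refine abs_le.2 (abs_le_of_sq_le_sq' ?_ hr0) <;>
      nlinarith [mul_self_nonneg w.re, mul_self_nonneg w.im, sq_nonneg (r : ℤ)]
  have h1 : S + 1 ≤ (2 * (2 * r) + 1) ^ 2 :=
    (card_le_of_sub hz τ S _ fun a h1 h2 =>
      mem_box (hsm _ (mem_diffs.2 ⟨a, τ, h1, h2, le_rfl, by omega, rfl⟩))).trans (card_box _)
  have hQ : Q < r := by
    by_contra hc
    push Not at hc
    have : (2 * (2 * r) + 1) ^ 2 ≤ (4 * Q + 1) ^ 2 := Nat.pow_le_pow_left (by omega) 2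
    omega
  have hu0 : u ≠ 0 := by
    rintro rfl
    simp at hr; omega
  have hρ := dot_self_pos hu0
  have hE : S + 1 ≤ (diffs z τ S).card := card_le_of_sub hz τ S _ fun a h1 h2 =>
    mem_diffs.2 ⟨a, τ, h1, h2, le_rfl, by omega, rfl⟩
  have hdet : ∀ w ∈ diffs z τ S, |det u w| ≤ det u u2 := by
    intro w hw
    rw [abs_le]
    refine ⟨?_, hmax2 w hw⟩
    have := hmax2 _ (neg_mem_diffs hw)
    have e : det u (-w) = - det u w := by simp [det]; ring
    rw [e] at this; linarith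
  have hA0 : 0 ≤ det u u2 := (abs_nonneg _).trans (hdet u2 hu2)
  have hsq : ∀ w ∈ diffs z τ S, dot u w ^ 2 + det u w ^ 2 ≤ dot u u ^ 2 := by
    intro w hw
    rw [dot_sq_add, sq]; exact mul_le_mul_of_nonneg_left (hmax w hw) hρ.le
  have hA1 : det u u2 ≤ dot u u := by
    have := hsq u2 hu2
    exact (abs_le_of_sq_le_sq' (by nlinarith) hρ.le).2
  have hrD : r ≤ D * S := by
    obtain ⟨a, b, h1, h2, h3, h4, e⟩ := mem_diffs.1 hu
    have := hz.disp' h1 h2 h3 h4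
    rw [e] at this
    obtain ⟨c1, c2⟩ := this
    rw [Int.abs_eq_natAbs] at c1 c2
    exact max_le (by exact_mod_cast c1) (by exact_mod_cast c2)
  have hA2 : det u u2 ≤ 81 * D ^ 2 * (diffs z τ S).card := by
    rcases hA0.eq_or_lt with h | h
    · rw [← h]; positivity
    obtain ⟨a, b, h1, h2, h3, h4, e⟩ := mem_diffs.1 hu
    obtain ⟨a', b', h1', h2', h3', h4', e'⟩ := mem_diffs.1 hu2
    obtain ⟨n1, γ1, p1, p2, p3, p4⟩ := exists_subpath hz h3 h4 h1 h2
    obtain ⟨n2, γ2, q1, q2, q3, q4⟩ := exists_subpath hz h3' h4' h1' h2'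
    have := index_le u u2 h ((diffs z τ S ×ˢ box (4 * D)).image (fun x => x.1 - x.2)) (fun w => by
      obtain ⟨i, hi, j, hj, ε, hε, α, β, hw⟩ := torus_cover γ1 γ2 n1 n2 p3 q3
        (by rw [p1, p2, q1, q2, e, e']; exact h) w
      rw [p1, p2, q1, q2, e, e'] at hw
      obtain ⟨c, c1, c2, c3⟩ := p4 i hi
      obtain ⟨d, d1, d2, d3⟩ := q4 j hj
      refine ⟨_, Finset.mem_image.2 ⟨(γ1 i - γ2 j, ε), Finset.mem_product.2 ⟨?_, mem_box hε⟩, rfl⟩,
        α, β, hw⟩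
      exact mem_diffs.2 ⟨c, d, c1, c2, d1, d2, by rw [c3, d3]⟩)
    refine this.trans ?_
    have h5 : ((diffs z τ S ×ˢ box (4 * D)).image (fun x : GI × GI => x.1 - x.2)).card ≤
        81 * D ^ 2 * (diffs z τ S).card := by
      refine Finset.card_image_le.trans ?_
      rw [Finset.card_product, mul_comm]
      refine Nat.mul_le_mul_right _ ((card_box _).trans ?_)
      nlinarith
    exact_mod_cast h5
  have hr0 : (1 : ℤ) ≤ r := by exact_mod_cast (by omega : 1 ≤ r)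
  refine ⟨u, det u u2 + r, hu0, ?_, by nlinarith, by nlinarith, ?_, fun w hw => ⟨?_, ?_⟩⟩
  · have : (Q : ℤ) < r := by exact_mod_cast hQ
    linarith
  · have h6 : r ≤ D ^ 2 * (diffs z τ S).card := by
      refine hrD.trans (Nat.mul_le_mul (by nlinarith) (by omega))
    have h7 : (r : ℤ) ≤ D ^ 2 * (diffs z τ S).card := by exact_mod_cast h6
    linarith
  · have := hsq w hw
    exact abs_le.2 (abs_le_of_sq_le_sq' (by nlinarith) hρ.le)
  · linarith [hdet w hw]

end Vale.Agent.P015
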