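import Vale.Agent.P015.Geom2

/-! Multiplicity bound for the difference set modulo a product of split primes. -/

namespace Vale.Agent.P015

open Finset
open scoped Classical

theorem mult_bound (u : GI) (a N Lf : ℤ) (hu : u ≠ 0) (hN : 0 < N) (hNa : N ≤ a) (hL : 1 ≤ Lf)
    (ha1 : a ≤ 2 * dot u u) (ha2 : dot u u ≤ 2 * a ^ 2) (V : Finset GI)
    (hV : ∀ w ∈ V, |dot u w| ≤ dot u u ∧ |det u w| ≤ a)
    (hdvd : ∀ v ∈ V, ∀ w ∈ V, ∀ v' ∈ V, ∀ w' ∈ V, N ∣ det (v - w) (v' - w'))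
    (hshort : ∀ v ∈ V, ∀ w ∈ V, v ≠ w → |dot u (v - w)| * a ≤ 2 * N * dot u u →
      |det u (v - w)| ≤ 2 * N → N ^ 2 ≤ Lf ^ 2 * dot (v - w) (v - w)) :
    (V.card : ℝ) * N ≤ 25 * a * Lf := by
  have hρ : (0 : ℝ) < dot u u := by exact_mod_cast dot_self_pos hu
  have hN' : (0 : ℝ) < N := by exact_mod_cast hN
  have hNa' : (N : ℝ) ≤ a := by exact_mod_cast hNa
  have hL' : (1 : ℝ) ≤ Lf := by exact_mod_cast hL
  have ha : (0 : ℝ) < a := hN'.trans_le hNa'
  by_cases hc : V.card ≤ 1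
  · have : (V.card : ℝ) ≤ 1 := by exact_mod_cast hc
    nlinarith
  set X : GI → ℝ := fun w => dot u w / dot u u with hX
  set Y : GI → ℝ := fun w => det u w / a with hY
  have hXs : ∀ v w, X v - X w = dot u (v - w) / dot u u := fun v w => by
    simp only [hX]; rw [← sub_div]; congr 1; simp [dot]; ring
  have hYs : ∀ v w, Y v - Y w = det u (v - w) / a := fun v w => by
    simp only [hY]; rw [← sub_div]; congr 1; simp [det]; ring
  have hX1 : ∀ v ∈ V, |X v| ≤ 1 := fun v hv => by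
    simp only [hX]; rw [abs_div, abs_of_pos hρ, div_le_one hρ]; exact_mod_cast (hV v hv).1
  have hY1 : ∀ v ∈ V, |Y v| ≤ 1 := fun v hv => by
    simp only [hY]; rw [abs_div, abs_of_pos ha, div_le_one ha]; exact_mod_cast (hV v hv).2
  obtain ⟨x, hx, hmin⟩ := Finset.exists_min_image V.offDiag
    (fun x => max |X x.1 - X x.2| |Y x.1 - Y x.2|) (by
      obtain ⟨v, hv, w, hw, hne⟩ := Finset.one_lt_card.1 (not_le.1 hc)
      exact ⟨(v, w), Finset.mem_offDiag.2 ⟨hv, hw, hne⟩⟩)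
  obtain ⟨g1, g2⟩ := x
  obtain ⟨hg1, hg2, hg⟩ := Finset.mem_offDiag.1 hx
  simp only at hg1 hg2 hg hmin
  set μ := max |X g1 - X g2| |Y g1 - Y g2| with hμ
  have hgg : (0 : ℝ) < dot (g1 - g2) (g1 - g2) := by
    exact_mod_cast dot_self_pos (sub_ne_zero.2 hg)
  have b1 : |(dot u (g1 - g2) : ℝ)| ≤ μ * dot u u := by
    have : |X g1 - X g2| ≤ μ := le_max_left _ _
    rwa [hXs, abs_div, abs_of_pos hρ, div_le_iff₀ hρ] at this
  have b2 : |(det u (g1 - g2) : ℝ)| ≤ μ * a := by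
    have : |Y g1 - Y g2| ≤ μ := le_max_right _ _
    rwa [hYs, abs_div, abs_of_pos ha, div_le_iff₀ ha] at this
  have hμ0 : 0 ≤ μ := (abs_nonneg _).trans (le_max_left _ _)
  have ha1' : (a : ℝ) ≤ 2 * dot u u := by exact_mod_cast ha1
  have ha2' : (dot u u : ℝ) ≤ 2 * a ^ 2 := by exact_mod_cast ha2
  have b3 : (dot (g1 - g2) (g1 - g2) : ℝ) ≤ (4 * μ * a) ^ 2 := by
    have e : (dot u (g1 - g2) : ℝ) ^ 2 + (det u (g1 - g2) : ℝ) ^ 2 =
        dot u u * dot (g1 - g2) (g1 - g2) := by exact_mod_cast dot_sq_add u (g1 - g2)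
    have c1 := sq_le_sq' (abs_le.1 b1).1 (abs_le.1 b1).2
    have c2 := sq_le_sq' (abs_le.1 b2).1 (abs_le.1 b2).2
    have c3 : (μ * a) ^ 2 ≤ (μ * (2 * dot u u)) ^ 2 := by gcongr
    have c4 : (dot u u : ℝ) * dot (g1 - g2) (g1 - g2) ≤ dot u u * (5 * μ ^ 2 * dot u u) := by
      nlinarith
    have c5 := le_of_mul_le_mul_left c4 hρ
    nlinarith [sq_nonneg μ, sq_nonneg (μ * a)]
  have hμpos : 0 < μ := by
    rcases hμ0.eq_or_lt with h | h
    · rw [← h] at b3; nlinarith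
    · exact h
  have hμ2 : μ ≤ 2 := by
    have a1 := abs_le.1 (hX1 g1 hg1); have a2 := abs_le.1 (hX1 g2 hg2)
    have a3 := abs_le.1 (hY1 g1 hg1); have a4 := abs_le.1 (hY1 g2 hg2)
    refine max_le ?_ ?_ <;> rw [abs_le] <;> constructor <;> linarith
  have hcount := lattice_count V X Y (N / a) μ (by positivity) hμpos hX1 hY1
    (X g1 - X g2) (Y g1 - Y g2) rfl (fun v hv w hw => by
      obtain ⟨k, hk⟩ := hdvd g1 hg1 g2 hg2 v hv w hw
      refine ⟨k, ?_⟩
      have e : (dot u (g1 - g2) : ℝ) * det u (v - w) - det u (g1 - g2) * dot u (v - w) =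
          dot u u * (N * k) := by
        have := dot_det_id u (g1 - g2) (v - w)
        rw [hk] at this; exact_mod_cast this
      rw [hXs, hYs, hXs, hYs]
      field_simp
      linarith)
    (fun v hv w hw hne => hmin (v, w) (Finset.mem_offDiag.2 ⟨hv, hw, hne⟩))
  have hfin : 2 / μ * N ≤ 8 * a * Lf := by
    rw [div_mul_eq_mul_div, div_le_iff₀ hμpos]
    by_cases h : 2 * (N : ℝ) ≤ μ * a
    · nlinarith [mul_pos hμpos ha]
    · push Not at h
      have s1 : |dot u (g1 - g2)| * a ≤ 2 * N * dot u u := by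
        have : |(dot u (g1 - g2) : ℝ)| * a ≤ 2 * N * dot u u := by nlinarith
        exact_mod_cast this
      have s2 : |det u (g1 - g2)| ≤ 2 * N := by
        have : |(det u (g1 - g2) : ℝ)| ≤ 2 * N := by linarith
        exact_mod_cast this
      have s3 : (N : ℝ) ^ 2 ≤ Lf ^ 2 * dot (g1 - g2) (g1 - g2) := by
        exact_mod_cast hshort g1 hg1 g2 hg2 hg s1 s2
      have s4 : (N : ℝ) ^ 2 ≤ (Lf * (4 * μ * a)) ^ 2 := by
        rw [mul_pow]; exact s3.trans (by gcongr)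
      have s5 := (abs_le_of_sq_le_sq' s4 (by positivity)).2
      nlinarith
  have e : (4 * μ / (N / a) + 1) * (2 / μ + 1) * N = 8 * a + 4 * μ * a + 2 / μ * N + N := by
    field_simp; ring
  calc (V.card : ℝ) * N ≤ (4 * μ / (N / a) + 1) * (2 / μ + 1) * N := by gcongr
    _ = _ := e
    _ ≤ 25 * a * Lf := by nlinarith

theorem geom {ι : Type} [Fintype ι] {D : ℕ} {z : ℕ → GI} (hz : Walk D z) (hD : 1 ≤ D)
    (F : Fam ι) (P k S : ℕ) (hP : 2 ≤ P) (hp : ∀ j, P ≤ F.p j ∧ F.p j ≤ 2 * P)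
    (hS : (32 * (2 * P) ^ (2 * k) + 1) ^ 2 ≤ S) (τ : ℕ) :
    ∃ B : Finset ι, B.card ≤ 4 * k ∧ ∀ I : Finset ι, I.card = k → ∀ c,
      (((diffs z τ S).filter (fun w => F.Ψ I w = c)).card : ℝ) * (∏ j ∈ I, F.p j : ℕ) ≤
        2050 * D ^ 2 * (2 * P) ^ (I ∩ B).card * (diffs z τ S).card := by
  obtain ⟨u, a, hu, hQ, ha1, ha2, ha3, hE⟩ := exists_frame hz hD τ S (8 * (2 * P) ^ (2 * k))
    (by rw [← mul_assoc]; exact hS)
  set Nm : ℤ := (2 * P) ^ k with hNm
  have hQ' : 8 * Nm ^ 2 < a := by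
    rw [hNm, ← pow_mul, mul_comm k 2]; exact_mod_cast hQ
  have hNm1 : 1 ≤ Nm := one_le_pow₀ (by exact_mod_cast (by omega : 1 ≤ 2 * P))
  have hρ := dot_self_pos hu
  have ha0 : 0 < a := by nlinarith
  obtain ⟨u0, hu0, hdir⟩ := exists_dir
    (fun g => g ≠ 0 ∧ |dot u g| * a ≤ 2 * Nm * dot u u ∧ |det u g| ≤ 2 * Nm) (fun g h => h.1)
    (fun g g' ⟨_, h1, h2⟩ ⟨_, h3, h4⟩ => by
      have e := dot_det_id u g g'
      have h5 : dot u u * (|det g g'| * a) ≤ dot u u * (8 * Nm ^ 2) := by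
        calc _ = |dot u g * det u g' - det u g * dot u g'| * a := by
              rw [e, abs_mul, abs_of_pos hρ]; ring
          _ ≤ (|dot u g| * |det u g'| + |det u g| * |dot u g'|) * a := by
              gcongr; refine (abs_sub _ _).trans ?_; rw [abs_mul, abs_mul]
          _ = (|dot u g| * a) * |det u g'| + |det u g| * (|dot u g'| * a) := by ring
          _ ≤ (2 * Nm * dot u u) * (2 * Nm) + (2 * Nm) * (2 * Nm * dot u u) := by gcongr
          _ = _ := by ring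
      have h6 := le_of_mul_le_mul_left h5 hρ
      by_contra hne
      have := Int.one_le_abs hne
      nlinarith)
  set B0 : Finset ι := univ.filter (fun j => F.ψ j u0 = 0) with hB0
  have hT : ((∏ j ∈ B0, F.p j : ℕ) : ℤ) ≤ dot u0 u0 :=
    Int.le_of_dvd (dot_self_pos hu0)
      (F.prod_dvd _ _ fun j hj => F.dvd_dot (Finset.mem_filter.1 hj).2)
  have hup : ∀ I : Finset ι, ∏ j ∈ I, F.p j ≤ (2 * P) ^ I.card := fun I =>
    Finset.prod_le_pow_card _ _ _ fun j _ => (hp j).2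
  have hlo : ∀ I : Finset ι, P ^ I.card ≤ ∏ j ∈ I, F.p j := fun I =>
    Finset.pow_card_le_prod _ _ _ fun j _ => (hp j).1
  have key : ∀ B : Finset ι, (∀ I : Finset ι, I.card = k →
      (∏ j ∈ I ∩ B0, F.p j) ^ 2 ≤ ((2 * P) ^ (I ∩ B).card) ^ 2 * ∏ j ∈ B0, F.p j) →
      ∀ I : Finset ι, I.card = k → ∀ c,
      (((diffs z τ S).filter (fun w => F.Ψ I w = c)).card : ℝ) * (∏ j ∈ I, F.p j : ℕ) ≤
        2050 * D ^ 2 * (2 * P) ^ (I ∩ B).card * (diffs z τ S).card := by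
    intro B hB I hI c
    have hN0 : (0 : ℤ) < (∏ j ∈ I, F.p j : ℕ) := by
      exact_mod_cast Finset.prod_pos fun j _ => (F.prime j).pos
    have hN1 : ((∏ j ∈ I, F.p j : ℕ) : ℤ) ≤ Nm := by
      rw [hNm, ← hI]; exact_mod_cast hup I
    have hz0 : ∀ v ∈ (diffs z τ S).filter (fun w => F.Ψ I w = c),
        ∀ w ∈ (diffs z τ S).filter (fun w => F.Ψ I w = c), ∀ j ∈ I, F.ψ j (v - w) = 0 := by
      intro v hv w hw j hj
      rw [F.ψ_sub, sub_eq_zero]
      exact (F.Ψ_eq_iff I v w).1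
        ((Finset.mem_filter.1 hv).2.trans (Finset.mem_filter.1 hw).2.symm) j hj
    have := mult_bound u a (∏ j ∈ I, F.p j : ℕ) ((2 * P) ^ (I ∩ B).card) hu hN0 (by nlinarith)
      (one_le_pow₀ (by exact_mod_cast (by omega : 1 ≤ 2 * P))) ha1 ha2
      ((diffs z τ S).filter (fun w => F.Ψ I w = c))
      (fun w hw => hE w (Finset.mem_filter.1 hw).1)
      (fun v hv w hw v' hv' w' hw' => F.prod_dvd _ _ fun j hj =>
        F.dvd_det (hz0 v hv w hw j hj) (hz0 v' hv' w' hw' j hj))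
      (fun v hv w hw hne s1 s2 => by
        obtain ⟨m, hm⟩ := hdir (v - w) ⟨sub_ne_zero.2 hne, s1.trans (by gcongr), by linarith⟩
        have hm0 : m ≠ 0 := by
          rintro rfl
          exact sub_ne_zero.2 hne (by simpa using hm)
        have d1 : ((∏ j ∈ I \ B0, F.p j : ℕ) : ℤ) ∣ m := F.prod_dvd _ _ fun j hj => by
          obtain ⟨j1, j2⟩ := Finset.mem_sdiff.1 hj
          exact F.dvd_of_smul (hm ▸ hz0 v hv w hw j j1) (by simpa [hB0] using j2)
        have d2 : ((∏ j ∈ I \ B0, F.p j : ℕ) : ℤ) ≤ |m| :=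
          Int.le_of_dvd (abs_pos.2 hm0) ((dvd_abs _ _).2 d1)
        have d3 : dot (v - w) (v - w) = |m| ^ 2 * dot u0 u0 := by
          rw [hm, sq_abs]; simp [dot]; ring
        have d4 : ∏ j ∈ I, F.p j = (∏ j ∈ I ∩ B0, F.p j) * ∏ j ∈ I \ B0, F.p j :=
          (Finset.prod_inter_mul_prod_sdiff _ _ _).symm
        have d5 : (((∏ j ∈ I ∩ B0, F.p j : ℕ)) : ℤ) ^ 2 ≤
            ((2 * P) ^ (I ∩ B).card) ^ 2 * ((∏ j ∈ B0, F.p j : ℕ) : ℤ) := by
          exact_mod_cast hB I hI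
        rw [d3, d4, Nat.cast_mul, mul_pow]
        calc _ ≤ (((2 * P : ℤ) ^ (I ∩ B).card) ^ 2 * dot u0 u0) * |m| ^ 2 := by
              have := dot_self_pos hu0
              refine mul_le_mul (d5.trans (by gcongr)) (by gcongr) (by positivity) (by positivity)
          _ = _ := by ring)
    have ha3' : (a : ℝ) ≤ 82 * D ^ 2 * (diffs z τ S).card := by exact_mod_cast ha3
    push_cast at this ⊢
    refine this.trans ?_
    calc _ ≤ 25 * (82 * D ^ 2 * (diffs z τ S).card) * (2 * P : ℝ) ^ (I ∩ B).card := by gcongr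
      _ = _ := by ring
  have hpos : 1 ≤ ∏ j ∈ B0, F.p j := Finset.prod_pos fun j _ => (F.prime j).pos
  by_cases hc : B0.card ≤ 4 * k
  · refine ⟨B0, hc, key B0 fun I _ => ?_⟩
    exact (Nat.pow_le_pow_left (hup _) 2).trans (Nat.le_mul_of_pos_right _ hpos)
  · refine ⟨∅, by simp, key ∅ fun I hI => ?_⟩
    simp only [Finset.inter_empty, Finset.card_empty, pow_zero, one_pow, one_mul]
    have h1 : (I ∩ B0).card ≤ k := hI ▸ Finset.card_le_card Finset.inter_subset_left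
    calc _ ≤ ((2 * P) ^ (I ∩ B0).card) ^ 2 := Nat.pow_le_pow_left (hup _) 2
      _ ≤ ((P * P) ^ k) ^ 2 := by
          refine Nat.pow_le_pow_left ?_ 2
          exact (Nat.pow_le_pow_left (Nat.mul_le_mul_right _ hP) _).trans
            (Nat.pow_le_pow_right (by positivity) h1)
      _ = P ^ (4 * k) := by rw [← sq, ← pow_mul, ← pow_mul]; congr 1; ring
      _ ≤ P ^ B0.card := Nat.pow_le_pow_right (by omega) (by omega)
      _ ≤ _ := hlo _

end Vale.Agent.P015
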