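import Mathlib

/-! Discrete Poincare-Miranda lemma and elementary counting lemmas. -/

namespace Vale.Agent.P015

open Finset

/-- indicator mod 2 of an edge crossing the positive vertical ray -/
def gg (a b c d : Bool) : ZMod 2 := if (b && d && (a != c)) then 1 else 0

theorem gg_square (a1 b1 a2 b2 a3 b3 a4 b4 : Bool)
    (h12 : a1 = a2 ∨ b1 = b2) (h13 : a1 = a3 ∨ b1 = b3) (h14 : a1 = a4 ∨ b1 = b4)
    (h23 : a2 = a3 ∨ b2 = b3) (h24 : a2 = a4 ∨ b2 = b4) (h34 : a3 = a4 ∨ b3 = b4) :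
    gg a1 b1 a2 b2 + gg a3 b3 a4 b4 = gg a2 b2 a4 b4 - gg a1 b1 a3 b3 := by
  revert a1 b1 a2 b2 a3 b3 a4 b4
  decide

theorem gg_top (a c : Bool) :
    gg a true c true = (if c then 1 else 0) - (if a then 1 else 0) := by
  revert a c; decide

theorem discrete_PM (f g : ℕ → ℕ → ℤ) (L : ℤ) (n m : ℕ)
    (hf1 : ∀ i j, |f (i + 1) j - f i j| ≤ L) (hf2 : ∀ i j, |f i (j + 1) - f i j| ≤ L)
    (hg1 : ∀ i j, |g (i + 1) j - g i j| ≤ L) (hg2 : ∀ i j, |g i (j + 1) - g i j| ≤ L)
    (hl : ∀ j ≤ m, f 0 j < 0) (hr : ∀ j ≤ m, 0 ≤ f n j)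
    (hb : ∀ i ≤ n, g i 0 < 0) (ht : ∀ i ≤ n, 0 ≤ g i m) :
    ∃ i j, |f i j| ≤ 2 * L ∧ |g i j| ≤ 2 * L := by
  by_contra hcon
  push Not at hcon
  set a : ℕ → ℕ → Bool := fun i j => decide (0 ≤ f i j) with ha
  set b : ℕ → ℕ → Bool := fun i j => decide (0 ≤ g i j) with hb'
  have hL : 0 ≤ L := (abs_nonneg _).trans (hf1 0 0)
  have key : ∀ i j i' j', |f i j - f i' j'| ≤ 2 * L → |g i j - g i' j'| ≤ 2 * L →
      a i j = a i' j' ∨ b i j = b i' j' := by
    intro i j i' j' h1 h2
    by_contra hne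
    push Not at hne
    obtain ⟨e1, e2⟩ := hne
    have e1' : ¬ ((0 ≤ f i j) ↔ (0 ≤ f i' j')) := by simpa [ha] using e1
    have e2' : ¬ ((0 ≤ g i j) ↔ (0 ≤ g i' j')) := by simpa [hb'] using e2
    have := hcon i j (by rw [abs_le] at *; omega)
    rw [abs_le] at h1 h2
    rw [lt_abs] at this
    omega
  have sq : ∀ i j, gg (a i j) (b i j) (a (i + 1) j) (b (i + 1) j) +
      gg (a i (j + 1)) (b i (j + 1)) (a (i + 1) (j + 1)) (b (i + 1) (j + 1)) =
      gg (a (i + 1) j) (b (i + 1) j) (a (i + 1) (j + 1)) (b (i + 1) (j + 1)) -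
      gg (a i j) (b i j) (a i (j + 1)) (b i (j + 1)) := by
    intro i j
    have p1 := hf1 i j; have p2 := hf2 i j; have p3 := hf1 i (j + 1); have p4 := hf2 (i + 1) j
    have q1 := hg1 i j; have q2 := hg2 i j; have q3 := hg1 i (j + 1); have q4 := hg2 (i + 1) j
    rw [abs_le] at p1 p2 p3 p4 q1 q2 q3 q4
    apply gg_square <;> apply key <;> rw [abs_le] <;> constructor <;> linarith
  have row : ∀ j ≤ m, ∑ i ∈ range n, gg (a i j) (b i j) (a (i + 1) j) (b (i + 1) j) = 0 := by
    intro j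
    induction j with
    | zero =>
      intro _
      refine Finset.sum_eq_zero fun i hi => ?_
      have : b i 0 = false := by
        have := hb i (Finset.mem_range.1 hi).le
        simp [hb']; exact this
      simp [gg, this]
    | succ j ih =>
      intro hj
      have h1 := Finset.sum_congr (s₁ := range n) rfl (fun i _ => sq i j)
      rw [Finset.sum_add_distrib, ih (by omega), zero_add,
        Finset.sum_range_sub (fun i => gg (a i j) (b i j) (a i (j + 1)) (b i (j + 1)))] at h1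
      rw [h1]
      have l1 : a 0 j = false := by have := hl j (by omega); simp [ha]; exact this
      have l2 : a 0 (j + 1) = false := by have := hl (j + 1) hj; simp [ha]; exact this
      have r1 : a n j = true := by have := hr j (by omega); simp [ha]; exact this
      have r2 : a n (j + 1) = true := by have := hr (j + 1) hj; simp [ha]; exact this
      simp [gg, l1, l2, r1, r2]
  have h1 := row m le_rfl
  have h2 : ∑ i ∈ range n, gg (a i m) (b i m) (a (i + 1) m) (b (i + 1) m) =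
      ∑ i ∈ range n, ((if a (i + 1) m then (1 : ZMod 2) else 0) - (if a i m then 1 else 0)) := by
    refine Finset.sum_congr rfl fun i hi => ?_
    have hi' := Finset.mem_range.1 hi
    have t1 : b i m = true := by have := ht i hi'.le; simp [hb']; exact this
    have t2 : b (i + 1) m = true := by have := ht (i + 1) hi'; simp [hb']; exact this
    rw [t1, t2, gg_top]
  rw [h2, Finset.sum_range_sub (fun i => if a i m then (1 : ZMod 2) else 0)] at h1
  have l1 : a 0 m = false := by have := hl m le_rfl; simp [ha]; exact this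
  have r1 : a n m = true := by have := hr m le_rfl; simp [ha]; exact this
  rw [l1, r1] at h1
  revert h1; decide

/-- separated values in an interval -/
theorem card_le_of_sep {α : Type*} (V : Finset α) (f : α → ℝ) (M δ : ℝ) (hδ : 0 < δ) (hM : 0 ≤ M)
    (hb : ∀ v ∈ V, |f v| ≤ M) (hs : ∀ v ∈ V, ∀ w ∈ V, v ≠ w → δ ≤ |f v - f w|) :
    (V.card : ℝ) ≤ 2 * M / δ + 1 := by
  have h1 : V.card ≤ (range (⌊2 * M / δ⌋₊ + 1)).card := by
    refine Finset.card_le_card_of_injOn (fun v => ⌊(f v + M) / δ⌋₊) (fun v hv => ?_) ?_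
    · have := abs_le.1 (hb v hv)
      simp only [Finset.coe_range, Set.mem_Iio]
      refine Nat.lt_succ_of_le (Nat.floor_mono ?_)
      exact div_le_div_of_nonneg_right (by linarith) hδ.le
    · intro v hv w hw e
      by_contra hne
      have h2 := hs v hv w hw hne
      have a1 := abs_le.1 (hb v hv)
      have a2 := abs_le.1 (hb w hw)
      have p1 : 0 ≤ (f v + M) / δ := div_nonneg (by linarith) hδ.le
      have p2 : 0 ≤ (f w + M) / δ := div_nonneg (by linarith) hδ.le
      have b1 := Nat.floor_le p1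
      have b2 := Nat.lt_floor_add_one ((f v + M) / δ)
      have b3 := Nat.floor_le p2
      have b4 := Nat.lt_floor_add_one ((f w + M) / δ)
      simp only at e
      rw [e] at b1 b2
      have : |(f v + M) / δ - (f w + M) / δ| < 1 := by rw [abs_lt]; constructor <;> linarith
      rw [← sub_div, abs_div, abs_of_pos hδ, div_lt_one hδ] at this
      have e2 : f v + M - (f w + M) = f v - f w := by ring
      rw [e2] at this
      linarith
  rw [Finset.card_range] at h1
  have h2 : ((⌊2 * M / δ⌋₊ : ℕ) : ℝ) ≤ 2 * M / δ := Nat.floor_le (by positivity)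
  have h3 : (V.card : ℝ) ≤ (⌊2 * M / δ⌋₊ : ℝ) + 1 := by exact_mod_cast h1
  linarith

theorem lattice_count_aux {α : Type*} (V : Finset α) (X Y : α → ℝ) (η μ : ℝ) (hη : 0 < η)
    (hμ : 0 < μ) (hX : ∀ v ∈ V, |X v| ≤ 1) (hY : ∀ v ∈ V, |Y v| ≤ 1) (gx gy : ℝ)
    (hgx : |gx| = μ) (hgy : |gy| ≤ μ)
    (hint : ∀ v ∈ V, ∀ w ∈ V, ∃ k : ℤ, gx * (Y v - Y w) - gy * (X v - X w) = η * k)
    (hsep : ∀ v ∈ V, ∀ w ∈ V, v ≠ w → μ ≤ max |X v - X w| |Y v - Y w|) :
    (V.card : ℝ) ≤ (4 * μ / η + 1) * (2 / μ + 1) := by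
  classical
  set φ : α → ℝ := fun v => gx * Y v - gy * X v with hφ
  have h1 : ((V.image φ).card : ℝ) ≤ 2 * (2 * μ) / η + 1 := by
    refine card_le_of_sep _ id _ _ hη (by positivity) ?_ ?_
    · intro y hy
      obtain ⟨v, hv, rfl⟩ := Finset.mem_image.1 hy
      have a1 := hX v hv; have a2 := hY v hv
      calc |gx * Y v - gy * X v| ≤ |gx * Y v| + |gy * X v| := abs_sub _ _
        _ = |gx| * |Y v| + |gy| * |X v| := by rw [abs_mul, abs_mul]
        _ ≤ μ * 1 + μ * 1 := by rw [hgx]; gcongr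
        _ = 2 * μ := by ring
    · intro y hy y' hy' hne
      obtain ⟨v, hv, rfl⟩ := Finset.mem_image.1 hy
      obtain ⟨w, hw, rfl⟩ := Finset.mem_image.1 hy'
      obtain ⟨k, hk⟩ := hint v hv w hw
      have e : φ v - φ w = η * k := by rw [← hk]; simp only [hφ]; ring
      have hk0 : k ≠ 0 := by
        rintro rfl
        apply hne; simp at e; linarith
      simp only [id, e, abs_mul, abs_of_pos hη]
      have : (1 : ℝ) ≤ |(k : ℝ)| := by exact_mod_cast Int.one_le_abs hk0
      nlinarith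
  have h2 : ∀ y ∈ V.image φ, ((V.filter (fun v => φ v = y)).card : ℝ) ≤ 2 * 1 / μ + 1 := by
    intro y _
    refine card_le_of_sep _ X _ _ hμ zero_le_one (fun v hv => hX v (Finset.mem_filter.1 hv).1) ?_
    intro v hv w hw hne
    obtain ⟨hv, e1⟩ := Finset.mem_filter.1 hv
    obtain ⟨hw, e2⟩ := Finset.mem_filter.1 hw
    have e : gx * (Y v - Y w) = gy * (X v - X w) := by
      have : φ v = φ w := e1.trans e2.symm
      simp only [hφ] at this; linarith
    have e' : μ * |Y v - Y w| ≤ μ * |X v - X w| := by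
      calc μ * |Y v - Y w| = |gx * (Y v - Y w)| := by rw [abs_mul, hgx]
        _ = |gy| * |X v - X w| := by rw [e, abs_mul]
        _ ≤ _ := by gcongr
    have e'' : |Y v - Y w| ≤ |X v - X w| := le_of_mul_le_mul_left e' hμ
    have := hsep v hv w hw hne
    rwa [max_eq_left e''] at this
  rw [Finset.card_eq_sum_card_image φ V]
  push_cast
  calc ∑ y ∈ V.image φ, ((V.filter (fun v => φ v = y)).card : ℝ)
      ≤ ∑ y ∈ V.image φ, (2 * 1 / μ + 1) := Finset.sum_le_sum h2
    _ = (V.image φ).card * (2 * 1 / μ + 1) := by rw [Finset.sum_const, nsmul_eq_mul]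
    _ ≤ (2 * (2 * μ) / η + 1) * (2 * 1 / μ + 1) := by gcongr
    _ = _ := by ring

theorem lattice_count {α : Type*} (V : Finset α) (X Y : α → ℝ) (η μ : ℝ) (hη : 0 < η)
    (hμ : 0 < μ) (hX : ∀ v ∈ V, |X v| ≤ 1) (hY : ∀ v ∈ V, |Y v| ≤ 1) (gx gy : ℝ)
    (hg : max |gx| |gy| = μ)
    (hint : ∀ v ∈ V, ∀ w ∈ V, ∃ k : ℤ, gx * (Y v - Y w) - gy * (X v - X w) = η * k)
    (hsep : ∀ v ∈ V, ∀ w ∈ V, v ≠ w → μ ≤ max |X v - X w| |Y v - Y w|) :
    (V.card : ℝ) ≤ (4 * μ / η + 1) * (2 / μ + 1) := by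
  rcases le_total |gy| |gx| with h | h
  · rw [max_eq_left h] at hg
    exact lattice_count_aux V X Y η μ hη hμ hX hY gx gy hg (hg ▸ h) hint hsep
  · rw [max_eq_right h] at hg
    refine lattice_count_aux V Y X η μ hη hμ hY hX gy gx hg (hg ▸ h) ?_ ?_
    · intro v hv w hw
      obtain ⟨k, hk⟩ := hint v hv w hw
      exact ⟨-k, by push_cast; linarith⟩
    · intro v hv w hw hne
      rw [max_comm]; exact hsep v hv w hw hne

end Vale.Agent.P015
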