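import Vale.Agent.P015.StageF2

/-! Many dyadic scales contain many primes `1 mod 4`. -/

namespace Vale.Agent.P015

open Finset Real ArithmeticFunction.vonMangoldt
open scoped Classical

noncomputable def scaleA (j : ℕ) : ℝ := (∑ p ∈ scaleP j, log p) / 2 ^ j

theorem scaleA_le (j : ℕ) : scaleA j ≤ 2.78 := by
  have h1 : ∑ p ∈ scaleP j, log p ≤ Chebyshev.theta ((2 ^ (j + 1) : ℕ) : ℝ) := by
    unfold Chebyshev.theta
    rw [Nat.floor_natCast]
    refine Finset.sum_le_sum_of_subset_of_nonneg (fun p hp => ?_) fun p _ _ => Real.log_natCast_nonneg p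
    simp only [scaleP, mem_filter, mem_Ico, mem_Ioc] at hp ⊢
    exact ⟨⟨hp.2.1.pos, hp.1.2.le⟩, hp.2.1⟩
  have h2 := Chebyshev.theta_le_log4_mul_x (x := ((2 ^ (j + 1) : ℕ) : ℝ)) (by positivity)
  have h3 : log 4 = 2 * log 2 := by
    rw [show (4 : ℝ) = 2 ^ 2 by norm_num, Real.log_pow]; norm_num
  have h4 := Real.log_two_lt_d9
  unfold scaleA
  rw [div_le_iff₀ (by positivity)]
  push_cast at h1 h2
  rw [pow_succ, h3] at h2
  rw [pow_succ] at h1
  have : (0 : ℝ) < 2 ^ j := by positivity
  nlinarith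

theorem scaleA_poor (y j : ℕ) (hj : j < 4096 * y)
    (h : ¬ 2 ^ j ≤ 2 ^ 24 * y * (scaleP j).card) : scaleA j ≤ 0.00018 := by
  have h1 : ∑ p ∈ scaleP j, log p ≤ (scaleP j).card • (4096 * y * log 2) := by
    refine Finset.sum_le_card_nsmul _ _ _ fun p hp => ?_
    simp only [scaleP, mem_filter, mem_Ico] at hp
    have h3 : (p : ℝ) ≤ 2 ^ (4096 * y) := by exact_mod_cast hp.1.2.le.trans (two_pow_le hj)
    refine (Real.log_le_log (by exact_mod_cast hp.2.1.pos) h3).trans ?_
    rw [Real.log_pow]; push_cast; rfl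
  have h2 : (2 ^ 24 * y * (scaleP j).card : ℝ) ≤ 2 ^ j := by exact_mod_cast (not_le.1 h).le
  have h4 := Real.log_two_lt_d9
  unfold scaleA
  rw [div_le_iff₀ (by positivity)]
  rw [nsmul_eq_mul] at h1
  have : (0 : ℝ) ≤ y * (scaleP j).card := by positivity
  nlinarith

theorem prime_part (σ : ℝ) (hσ : 0 < σ) (N : ℕ) :
    ∑ n ∈ range (2 ^ N), (if n.Prime ∧ n % 4 = 1 then log n / (n : ℝ) ^ (1 + σ) else 0) ≤
      ∑ j ∈ range N, scaleA j * ((2 ^ σ)⁻¹) ^ j := by
  induction N with
  | zero => simp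
  | succ N ih =>
    rw [← Finset.sum_range_add_sum_Ico _ (two_pow_le (Nat.le_succ N)), Finset.sum_range_succ]
    refine add_le_add ih ?_
    rw [← Finset.sum_filter]
    unfold scaleA
    rw [Finset.sum_div, Finset.sum_mul]
    refine Finset.sum_le_sum fun p hp => ?_
    simp only [mem_filter, mem_Ico] at hp
    have h1 : (2 : ℝ) ^ N ≤ p := by exact_mod_cast hp.1.1
    have h2 : (2 : ℝ) ^ N * (2 ^ σ) ^ N ≤ (p : ℝ) ^ (1 + σ) := by
      refine le_trans (le_of_eq ?_) (Real.rpow_le_rpow (by positivity) h1 (by linarith))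
      rw [Real.rpow_add (by positivity), Real.rpow_one, ← Real.rpow_natCast (2 ^ σ),
        ← Real.rpow_mul (by norm_num), ← Real.rpow_natCast 2 N, ← Real.rpow_mul (by norm_num),
        mul_comm σ]
    rw [inv_pow, ← div_eq_mul_inv, div_div]
    exact div_le_div_of_nonneg_left (Real.log_natCast_nonneg p) (by positivity) h2

theorem scale_sum (y N : ℕ) (hy : 1 ≤ y) :
    ∑ j ∈ range N, scaleA j * (((2 : ℝ) ^ (1 / (320 * y) : ℝ))⁻¹) ^ j ≤ 46 * y + 2.78 *
      ((Ico (16 * y) (4096 * y)).filter fun j => 2 ^ j ≤ 2 ^ 24 * y * (scaleP j).card).card := by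
  set R := (Ico (16 * y) (4096 * y)).filter fun j => 2 ^ j ≤ 2 ^ 24 * y * (scaleP j).card with hR
  have hy' : (1 : ℝ) ≤ y := by exact_mod_cast hy
  set ρ : ℝ := ((2 : ℝ) ^ (1 / (320 * y) : ℝ))⁻¹ with hρ
  have l1 := Real.log_two_gt_d9
  have l2 := Real.log_two_lt_d9
  have e1 : ρ = exp (-(log 2 / (320 * y))) := by
    rw [hρ, Real.rpow_def_of_pos (by norm_num), Real.exp_neg]; congr 2; ring
  have r0 : 0 < ρ := by rw [e1]; exact exp_pos _
  have r1 : 1 / (1000 * y) ≤ 1 - ρ := by
    have h1 := Real.add_one_le_exp (log 2 / (320 * y))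
    have h2 : ρ ≤ 1 / (log 2 / (320 * y) + 1) := by
      rw [e1, Real.exp_neg, ← one_div]
      exact one_div_le_one_div_of_le (by positivity) h1
    have h3 : 1 / (log 2 / (320 * y) + 1) ≤ 1 - 1 / (1000 * y) := by
      rw [div_add_one (by positivity), one_div_div, one_sub_div (by positivity),
        div_le_div_iff₀ (by positivity) (by positivity)]
      nlinarith
    linarith
  have r1' : (0 : ℝ) < 1 / (1000 * y) := by positivity
  have r2 : ρ ^ (4096 * y) ≤ 1 / 4096 := by
    rw [e1, ← Real.exp_nat_mul, show (1 / 4096 : ℝ) = exp (-(12 * log 2)) by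
      rw [Real.exp_neg, show (12 : ℝ) * log 2 = log (2 ^ 12) by rw [Real.log_pow]; norm_num,
        Real.exp_log (by norm_num)]; norm_num, Real.exp_le_exp]
    push_cast
    field_simp
    nlinarith
  have r3 : ∑ j ∈ Ico (4096 * y) N, ρ ^ j ≤ 1000 * y / 4096 := by
    refine (geom_sum_Ico_le_of_lt_one r0.le (by linarith)).trans ?_
    refine (div_le_div₀ (by norm_num) r2 r1' r1).trans (le_of_eq ?_)
    field_simp
  have pt : ∀ j ∈ range N, scaleA j * ρ ^ j ≤ (if j ∈ range (16 * y) then 2.78 else 0) +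
      (if j ∈ R then 2.78 else 0) + (if j ∈ range (4096 * y) then 0.00018 else 0) +
      (if j ∈ Ico (4096 * y) N then 2.78 * ρ ^ j else 0) := by
    intro j hj
    have a0 : 0 ≤ scaleA j :=
      div_nonneg (Finset.sum_nonneg fun p _ => Real.log_natCast_nonneg p) (by positivity)
    have a1 := scaleA_le j
    have a2 : ρ ^ j ≤ 1 := pow_le_one₀ r0.le (by linarith)
    have a3 : 0 ≤ ρ ^ j := by positivity
    have a4 : scaleA j * ρ ^ j ≤ scaleA j := by nlinarith
    have a5 : scaleA j * ρ ^ j ≤ 2.78 * ρ ^ j := by nlinarith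
    split_ifs with c1 c2 c3 c4 c5 c6 c7 c8 c9 c10 c11 c12 c13 c14 c15 <;> try linarith
    all_goals simp only [mem_range, mem_Ico, hR, mem_filter] at *
    all_goals first
      | omega
      | (have := scaleA_poor y j (by omega) (fun h => c9 ⟨⟨by omega, by omega⟩, h⟩); linarith)
  refine (Finset.sum_le_sum pt).trans ?_
  have cb : ∀ (A : Finset ℕ) (c : ℝ), 0 ≤ c → ∑ j ∈ range N, (if j ∈ A then c else 0) ≤
      A.card * c := by
    intro A c hc
    rw [Finset.sum_ite_mem, Finset.sum_const, nsmul_eq_mul]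
    exact mul_le_mul_of_nonneg_right (by exact_mod_cast card_le_card inter_subset_right) hc
  have c1 := cb (range (16 * y)) 2.78 (by norm_num)
  have c2 := cb R 2.78 (by norm_num)
  have c3 := cb (range (4096 * y)) 0.00018 (by norm_num)
  have c4 : ∑ j ∈ range N, (if j ∈ Ico (4096 * y) N then 2.78 * ρ ^ j else 0) ≤
      2.78 * (1000 * y / 4096) := by
    rw [Finset.sum_ite_mem]
    refine le_trans (Finset.sum_le_sum_of_subset_of_nonneg inter_subset_right
      fun j _ _ => by positivity) ?_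
    rw [← Finset.mul_sum]; linarith
  rw [card_range] at c1 c3
  push_cast at c1 c3
  simp only [Finset.sum_add_distrib]
  linarith

theorem richMany : RichMany := by
  obtain ⟨C, hC⟩ := LSeries_residueClass_lower_bound (q := 4) (a := 1) isUnit_one
  have hs := summable_residueClass_non_primes_div (q := 4) 1
  set C' := ∑' n : ℕ, (if n.Prime then 0 else residueClass (q := 4) 1 n) / n with hC'
  obtain ⟨y0, hy0⟩ := exists_nat_ge (C + C')
  refine ⟨y0 + 1, fun y hy => ?_⟩
  have hy' : (y0 + 1 : ℝ) ≤ y := by exact_mod_cast hy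
  have hy0' : (0 : ℝ) ≤ y0 := Nat.cast_nonneg _
  set σ : ℝ := 1 / (320 * y) with hσ
  have s0 : 0 < σ := by rw [hσ]; apply div_pos <;> linarith
  have s1 : σ ≤ 1 := by rw [hσ, div_le_one (by linarith)]; linarith
  have h1 := hC (x := 1 + σ) ⟨by linarith, by linarith⟩
  have h2 : ((Nat.totient 4 : ℕ) : ℝ)⁻¹ / (1 + σ - 1) = 160 * y := by
    rw [show Nat.totient 4 = 2 by decide, add_sub_cancel_left, hσ]
    push_cast; field_simp; ring
  rw [h2] at h1
  have h3 := fun N => (prime_part σ s0 N).trans (scale_sum y N (by omega))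
  generalize ((Ico (16 * y) (4096 * y)).filter
    fun j => 2 ^ j ≤ 2 ^ 24 * y * (scaleP j).card).card = m at h3 ⊢
  have n0 : ∀ n : ℕ, 0 ≤ (if n.Prime then 0 else residueClass (q := 4) 1 n) / n := fun n => by
    have := residueClass_nonneg (q := 4) 1 n
    positivity
  have h4 : ∑' n, residueClass (q := 4) 1 n / (n : ℝ) ^ (1 + σ) ≤ C' + (46 * y + 2.78 * m) := by
    refine Real.tsum_le_of_sum_range_le (fun n => ?_) fun K => ?_
    · have := residueClass_nonneg (q := 4) 1 n
      positivity
    have b1 : ∑ n ∈ range K, (if n.Prime then 0 else residueClass (q := 4) 1 n) / n ≤ C' :=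
      hs.sum_le_tsum _ fun n _ => n0 n
    have b2 := le_trans (Finset.sum_le_sum_of_subset_of_nonneg
      (range_mono (Nat.lt_two_pow_self (n := K)).le) fun n _ _ => by
        have := Real.log_natCast_nonneg n
        positivity) (h3 K)
    refine le_trans ?_ (add_le_add b1 b2)
    rw [← Finset.sum_add_distrib]
    refine Finset.sum_le_sum fun n _ => ?_
    by_cases hp : n.Prime
    · simp only [hp, if_true, zero_div, zero_add, true_and]
      by_cases h4 : n % 4 = 1
      · rw [if_pos h4]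
        exact div_le_div_of_nonneg_right ((residueClass_le _ _).trans
          (ArithmeticFunction.vonMangoldt_apply_prime hp).le) (by positivity)
      · have : ¬ ((n : ZMod 4) = 1) := fun e => h4 (by
          have := (ZMod.natCast_eq_natCast_iff' n 1 4).1 (by simpa using e)
          simpa using this)
        simp [h4, residueClass, this]
    · simp only [hp, if_false, false_and, add_zero]
      rcases n.eq_zero_or_pos with rfl | hn
      · simp
      · refine div_le_div_of_nonneg_left (residueClass_nonneg _ _) (by exact_mod_cast hn) ?_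
        conv_lhs => rw [← Real.rpow_one n]
        exact Real.rpow_le_rpow_of_exponent_le (by exact_mod_cast hn) (by linarith)
  have h5 : (32 * y : ℝ) ≤ m := by linarith
  exact_mod_cast h5

end Vale.Agent.P015
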