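import Vale.Agent.P015.Geom3
import Vale.Agent.Lib.helper15.Entropy

/-! The geometric sampling rule and averaging over random sets of primes. -/

namespace Vale.Agent.P015

open Finset Real Vale.Agent.H15 Vale.Agent.H15.Law
open scoped Classical

noncomputable def lg (n : ℕ) : ℝ := Real.log ((2 * n + 1) ^ 2)

theorem lg_mono {m n : ℕ} (h : m ≤ n) : lg m ≤ lg n := by
  unfold lg
  have : (m : ℝ) ≤ n := by exact_mod_cast h
  exact Real.log_le_log (by positivity) (by gcongr)

theorem lg_nonneg (n : ℕ) : 0 ≤ lg n := Real.log_nonneg (by nlinarith [Nat.cast_nonneg (α := ℝ) n])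

theorem H_le_lg {α : Type} (μ : Law α) (f : α → GI) (n : ℕ) (h : μ.All (fun x => Small n (f x))) :
    μ.H f ≤ lg n := by
  refine (H_le_log_card μ f (box n) (h.mono fun _ => mem_box)).trans (Real.log_le_log ?_ ?_)
  · exact_mod_cast Finset.card_pos.2 ⟨0, mem_box (small_zero n)⟩
  · exact_mod_cast card_box n

noncomputable def pick (z : ℕ → GI) (τ S : ℕ) (w : GI) : ℕ × ℕ :=
  if h : w ∈ diffs z τ S then ((mem_diffs.1 h).choose, (mem_diffs.1 h).choose_spec.choose)
  else (τ, τ)

theorem pick_spec {z : ℕ → GI} {τ S : ℕ} {w : GI} (h : w ∈ diffs z τ S) :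
    τ ≤ (pick z τ S w).1 ∧ (pick z τ S w).1 ≤ τ + S ∧ τ ≤ (pick z τ S w).2 ∧
      (pick z τ S w).2 ≤ τ + S ∧ z (pick z τ S w).1 - z (pick z τ S w).2 = w := by
  unfold pick; rw [dif_pos h]
  exact (mem_diffs.1 h).choose_spec.choose_spec

noncomputable def coin : Law Bool := unif univ univ_nonempty

theorem E_coin (f : Bool → ℝ) : coin.E f = (f true + f false) / 2 := by
  unfold coin; rw [E_unif]; simp

/-- the geometric sampling rule: a pair of times whose displacement is uniform on the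
difference set -/
noncomputable def rule (z : ℕ → GI) (S τ : ℕ) : Law (ℕ × ℕ) :=
  (unif (diffs z τ S) (diffs_nonempty z τ S)).bind fun w =>
    coin.map fun s => if s then pick z τ S w else (pick z τ S w).swap

noncomputable def ruleK (z : ℕ → GI) (S τ : ℕ) : Law ℕ := (rule z S τ).map Prod.fst

theorem E_rule (z : ℕ → GI) (S τ : ℕ) (f : ℕ × ℕ → ℝ) : (rule z S τ).E f =
    (∑ w ∈ diffs z τ S, (f (pick z τ S w) + f (pick z τ S w).swap) / 2) / (diffs z τ S).card := by
  unfold rule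
  simp only [E_bind, E_map, E_coin, E_unif]
  simp

theorem E_rule_snd (z : ℕ → GI) (S τ : ℕ) (f : ℕ → ℝ) :
    (rule z S τ).E (fun x => f x.2) = (rule z S τ).E (fun x => f x.1) := by
  simp only [E_rule, Prod.snd_swap, Prod.fst_swap, add_comm]

theorem rule_all (z : ℕ → GI) (S τ : ℕ) :
    (rule z S τ).All (fun x => τ ≤ x.1 ∧ x.1 ≤ τ + S ∧ τ ≤ x.2 ∧ x.2 ≤ τ + S) := by
  refine all_bind (all_unif fun w hw => all_map (all_true _ fun s => ?_))
  obtain ⟨h1, h2, h3, h4, _⟩ := pick_spec hw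
  cases s <;> simp [h1, h2, h3, h4]

theorem ruleK_all (z : ℕ → GI) (S τ : ℕ) : (ruleK z S τ).All (fun x => τ ≤ x ∧ x ≤ τ + S) :=
  all_map ((rule_all z S τ).mono fun _ h => ⟨h.1, h.2.1⟩)

theorem prob_rule {β : Type} (z : ℕ → GI) (S τ : ℕ) (g : GI → β) (c : β) :
    (rule z S τ).prob (fun x => g (z x.1 - z x.2)) c =
      ((diffs z τ S).filter (fun w => g w = c)).card / (diffs z τ S).card := by
  unfold prob
  rw [E_rule]
  congr 1
  have h1 : ∑ w ∈ diffs z τ S, (if g (-w) = c then (1 : ℝ) else 0) =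
      ∑ w ∈ diffs z τ S, (if g w = c then (1 : ℝ) else 0) :=
    Finset.sum_nbij' (fun w => -w) (fun w => -w) (fun w hw => neg_mem_diffs hw)
      (fun w hw => neg_mem_diffs hw) (fun w _ => neg_neg w) (fun w _ => neg_neg w)
      (fun w _ => rfl)
  have h2 : ∑ w ∈ diffs z τ S, (if g w = c then (1 : ℝ) else 0) =
      ((diffs z τ S).filter (fun w => g w = c)).card := by simp
  rw [← Finset.sum_div, Finset.sum_add_distrib]
  have h3 : ∀ w ∈ diffs z τ S, z (pick z τ S w).1 - z (pick z τ S w).2 = w :=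
    fun w hw => (pick_spec hw).2.2.2.2
  have h4 : ∀ w ∈ diffs z τ S, z (pick z τ S w).swap.1 - z (pick z τ S w).swap.2 = -w :=
    fun w hw => by rw [Prod.fst_swap, Prod.snd_swap, ← neg_sub, h3 w hw]
  beta_reduce
  rw [Finset.sum_congr rfl (fun w hw => by rw [h3 w hw]),
    Finset.sum_congr (s₁ := diffs z τ S) (f := fun w => if g (z (pick z τ S w).swap.1 -
      z (pick z τ S w).swap.2) = c then (1 : ℝ) else 0) rfl (fun w hw => by rw [h4 w hw]), h1, h2]
  ring

section avg
variable {ι : Type} [Fintype ι]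

noncomputable def perms (ι : Type) [Fintype ι] : Law (Equiv.Perm ι) := unif univ univ_nonempty

/-- average of a set function over random relabellings of `I` -/
noncomputable def avg (f : Finset ι → ℝ) (I : Finset ι) : ℝ :=
  (perms ι).E (fun σ => f (I.map σ.toEmbedding))

theorem avg_congr (f : Finset ι → ℝ) {I J : Finset ι} (h : I.card = J.card) :
    avg f I = avg f J := by
  obtain ⟨ρ, hρ⟩ := Equiv.Perm.exists_map_finset_eq I J h
  unfold avg perms
  rw [E_unif, E_unif]
  congr 1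
  refine (Fintype.sum_equiv (Equiv.mulRight ρ) _ _ fun σ => ?_).symm
  rw [← hρ, Finset.map_map]; rfl

theorem avg_sum (g : ι → ℝ) (I : Finset ι) :
    avg (fun J => ∑ j ∈ J, g j) I = I.card * (∑ j, g j) / Fintype.card ι := by
  have h1 : ∀ J : Finset ι, avg (fun J => ∑ j ∈ J, g j) J =
      ∑ i ∈ J, avg (fun J => ∑ j ∈ J, g j) {i} := by
    intro J
    unfold avg
    rw [← E_sum]; simp
  rcases I.eq_empty_or_nonempty with rfl | ⟨i0, hi0⟩
  · rw [h1]; simp
  have h2 : ∀ J : Finset ι, avg (fun J => ∑ j ∈ J, g j) J =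
      J.card * avg (fun J => ∑ j ∈ J, g j) {i0} := by
    intro J
    rw [h1, Finset.sum_congr rfl (fun i _ => avg_congr _ (J := {i0}) (by simp))]
    simp
  have h3 : avg (fun J => ∑ j ∈ J, g j) univ = ∑ j, g j := by
    unfold avg; simp
  have h4 : (Fintype.card ι : ℝ) ≠ 0 := by
    exact_mod_cast (Fintype.card_pos_iff.2 ⟨i0⟩).ne'
  rw [h2 I, ← h3, h2 univ, Finset.card_univ]
  rw [mul_comm (Fintype.card ι : ℝ), ← mul_assoc, mul_div_cancel_right₀ _ h4]

theorem avg_mono {f g : Finset ι → ℝ} {I : Finset ι} (h : ∀ J, J.card = I.card → f J ≤ g J) :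
    avg f I ≤ avg g I := E_mono fun _ => h _ (Finset.card_map _)

theorem exists_blocks (M k : ℕ) (h : M * k ≤ Fintype.card ι) :
    ∃ (B : Fin M → Finset ι) (U : Finset ι), (∀ i, (B i).card = k) ∧ U.card = M * k ∧
      (∀ j, j ∈ U ↔ ∃ i, j ∈ B i) ∧ ∀ g : ι → ℝ, ∑ j ∈ U, g j = ∑ i, ∑ j ∈ B i, g j := by
  obtain ⟨e⟩ : Nonempty (Fin M × Fin k ↪ ι) :=
    Function.Embedding.nonempty_of_card_le (by simpa using h)
  refine ⟨fun i => univ.map ⟨fun j => e (i, j), fun a b hab => by simpa using hab⟩, univ.map e,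
    fun i => by simp, by simp, fun j => by simp; rfl, fun g => ?_⟩
  simp [Fintype.sum_prod_type]; rfl

end avg

end Vale.Agent.P015
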