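import Vale.Agent.P015.Rule

/-! The contraction inequality for entropy deficiencies. -/

namespace Vale.Agent.P015

open Finset Real Vale.Agent.H15 Vale.Agent.H15.Law
open scoped Classical

variable {ι : Type}

/-- entropy deficiency of the position modulo the primes in `I` -/
noncomputable def Def (F : Fam ι) (z : ℕ → GI) (μ : Law ℕ) (I : Finset ι) : ℝ :=
  ∑ j ∈ I, log (F.p j) - μ.H (fun t => F.Ψ I (z t))

def Span (L : ℕ → Law ℕ) (l : ℕ) : Prop := ∀ t, (L t).All (fun x => t ≤ x ∧ x ≤ t + l)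

def Prep (z : ℕ → GI) (μ : Law ℕ) (S l : ℕ) : Prop :=
  ∃ (ν : Law ℕ) (L : ℕ → Law ℕ), Span L l ∧ μ.Eqv ((ν.bind (ruleK z S)).bind L)

theorem H_ψ_le {α : Type} (F : Fam ι) (μ : Law α) (j : ι) (f : α → ZMod (F.p j)) :
    μ.H f ≤ log (F.p j) := by
  simpa using H_le_log_card μ f univ (all_true _ fun _ => mem_univ _)

theorem H_Ψ_le_sum {α : Type} (F : Fam ι) (μ : Law α) (I : Finset ι) (y : α → GI) :
    μ.H (fun t => F.Ψ I (y t)) ≤ ∑ j ∈ I, μ.H (fun t => F.ψ j (y t)) :=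
  H_le_sum μ (fun j t => F.ψ j (y t)) I _ fun _ _ h => (F.Ψ_eq_iff _ _ _).2 h

theorem Def_le (F : Fam ι) (z : ℕ → GI) (μ : Law ℕ) (I : Finset ι) :
    Def F z μ I ≤ ∑ j ∈ I, log (F.p j) := sub_le_self _ (H_nonneg _ _)

theorem sum_def_le (F : Fam ι) (z : ℕ → GI) (μ : Law ℕ) (I : Finset ι) :
    ∑ j ∈ I, (log (F.p j) - μ.H (fun t => F.ψ j (z t))) ≤ Def F z μ I := by
  rw [Finset.sum_sub_distrib]; exact sub_le_sub_left (H_Ψ_le_sum F μ I z) _

theorem info_ineq {α : Type} (F : Fam ι) (Ω : Law α) (y y' y0 y0' : α → GI) {M : ℕ}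
    (B : Fin M → Finset ι) (U : Finset ι) (hU : ∀ j, j ∈ U ↔ ∃ i, j ∈ B i) :
    ∑ i, (Ω.H (fun x => F.Ψ (B i) (y0 x - y0' x)) - Ω.H (fun x => y x - y0 x)
        - Ω.H (fun x => y' x - y0' x)) + Ω.H (fun x => F.Ψ U (y' x)) - Ω.H (fun x => y x - y' x)
      ≤ ∑ i, (Ω.H (fun x => F.Ψ (B i) (y x)) + Ω.H (fun x => F.Ψ (B i) (y' x))) := by
  have h1 := H_le_Hc_add Ω (fun x => F.Ψ U (y' x)) (fun x => y x - y' x)
  have h2 := Hc_le_sum Ω (B := fun _ => (j : ι) → ZMod (F.p j)) (fun i x => F.Ψ (B i) (y' x))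
    (fun x => y x - y' x) univ (fun x => F.Ψ U (y' x)) (fun a b h => by
      refine (F.Ψ_eq_iff _ _ _).2 fun j hj => ?_
      obtain ⟨i, hi⟩ := (hU j).1 hj
      exact (F.Ψ_eq_iff _ _ _).1 (h i (mem_univ i)) j hi)
  have h3 : ∀ i, (Ω.H (fun x => F.Ψ (B i) (y0 x - y0' x)) - Ω.H (fun x => y x - y0 x)
        - Ω.H (fun x => y' x - y0' x)) + Ω.Hc (fun x => F.Ψ (B i) (y' x)) (fun x => y x - y' x)
      ≤ Ω.H (fun x => F.Ψ (B i) (y x)) + Ω.H (fun x => F.Ψ (B i) (y' x)) := by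
    intro i
    have a1 := Hc_le_of_dep_right Ω (fun x => F.Ψ (B i) (y' x)) (g := fun x => y x - y' x)
      (g' := fun x => F.Ψ (B i) (y x - y' x)) (fun a b h => by rw [h])
    have a2 := Hc_swap Ω (fun x => F.Ψ (B i) (y' x)) (fun x => F.Ψ (B i) (y x - y' x))
    have a3 := Hc_le_of_dep_left Ω (f := fun x => F.Ψ (B i) (y x - y' x))
      (f' := fun x => F.Ψ (B i) (y x)) (g := fun x => F.Ψ (B i) (y' x)) (fun a b h h' => by
        rw [F.Ψ_eq_iff] at h h' ⊢
        intro j hj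
        rw [F.ψ_sub, F.ψ_sub, h j hj, h' j hj])
    have a4 := Hc_le_H Ω (fun x => F.Ψ (B i) (y x)) (fun x => F.Ψ (B i) (y' x))
    have a5 := H_le_add Ω (f := fun x => F.Ψ (B i) (y0 x - y0' x))
      (f' := fun x => F.Ψ (B i) (y x - y' x)) (g := fun x => (y x - y0 x, y' x - y0' x))
      (fun a b h h' => by
        rw [F.Ψ_eq_iff] at h ⊢
        intro j hj
        obtain ⟨e1, e2⟩ := Prod.ext_iff.1 h'
        simp only at e1 e2
        have e : ∀ x, y0 x - y0' x = (y x - y' x) - (y x - y0 x) + (y' x - y0' x) :=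
          fun x => by ring
        rw [e a, e b, F.ψ_add, F.ψ_add, F.ψ_sub j (y a - y' a), F.ψ_sub j (y b - y' b), h j hj, e1, e2])
    have a6 := H_pair_le Ω (fun x => y x - y0 x) (fun x => y' x - y0' x)
    linarith
  have h4 := Finset.sum_le_sum (s := univ) fun i _ => h3 i
  rw [Finset.sum_add_distrib] at h4
  linarith

/-- per-prime average deficiency bound at level `k` -/
def Bd [Fintype ι] (F : Fam ι) (z : ℕ → GI) (μ : Law ℕ) (k : ℕ) (x : ℝ) : Prop :=
  ∀ I : Finset ι, I.card = k → avg (Def F z μ) I ≤ k * x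

theorem Bd.triv [Fintype ι] (F : Fam ι) (z : ℕ → GI) (μ : Law ℕ) (k P : ℕ)
    (hp : ∀ j, P ≤ F.p j ∧ F.p j ≤ 2 * P) : Bd F z μ k (log (2 * P)) := by
  intro I hI
  refine E_le_const fun σ => (Def_le _ _ _ _).trans ?_
  have : ∀ j ∈ I.map σ.toEmbedding, log (F.p j) ≤ log (2 * P) := fun j _ =>
    Real.log_le_log (by exact_mod_cast (F.prime j).pos) (by exact_mod_cast (hp j).2)
  simpa [hI] using Finset.sum_le_card_nsmul _ _ _ this

theorem H_rule_ge [Fintype ι] {D : ℕ} {z : ℕ → GI} (hz : Walk D z) (hD : 1 ≤ D)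
    (F : Fam ι) (P k S : ℕ) (hP : 2 ≤ P) (hp : ∀ j, P ≤ F.p j ∧ F.p j ≤ 2 * P)
    (hS : (32 * (2 * P) ^ (2 * k) + 1) ^ 2 ≤ S) (ν : Law ℕ) (I : Finset ι) (hI : I.card = k) :
    avg (fun J => ∑ j ∈ J, log (F.p j) -
      (ν.bind (rule z S)).H (fun x => F.Ψ J (z x.1 - z x.2))) I ≤
      log (2050 * D ^ 2) + 4 * k ^ 2 / Fintype.card ι * log (2 * P) := by
  choose B hB1 hB2 using fun τ => geom hz hD F P k S hP hp hS τ
  have hP' : (0 : ℝ) < 2 * P := by have : (2 : ℝ) ≤ P := by exact_mod_cast hP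
                                   linarith
  have hlog : 0 ≤ log (2 * P) := Real.log_nonneg (by
    have : (2 : ℝ) ≤ P := by exact_mod_cast hP
    linarith)
  have hD' : (0 : ℝ) < D := by exact_mod_cast hD
  have h1 : ∀ J : Finset ι, J.card = I.card → ∑ j ∈ J, log (F.p j) -
      (ν.bind (rule z S)).H (fun x => F.Ψ J (z x.1 - z x.2)) ≤
      log (2050 * D ^ 2) + ν.E (fun τ => ∑ j ∈ J, if j ∈ B τ then (1 : ℝ) else 0) * log (2 * P) := by
    intro J hJ
    have hN : (0 : ℝ) < (∏ j ∈ J, F.p j : ℕ) := by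
      exact_mod_cast Finset.prod_pos fun j _ => (F.prime j).pos
    have a1 := H_bind_ge ν (rule z S) (fun x => F.Ψ J (z x.1 - z x.2))
    have a2 : ν.E (fun τ => ∑ j ∈ J, log (F.p j) - log (2050 * D ^ 2) -
        (∑ j ∈ J, if j ∈ B τ then (1 : ℝ) else 0) * log (2 * P)) ≤
        ν.E (fun τ => (rule z S τ).H (fun x => F.Ψ J (z x.1 - z x.2))) := by
      refine E_mono fun τ => ?_
      have hE : (0 : ℝ) < (diffs z τ S).card := by exact_mod_cast (diffs_nonempty z τ S).card_pos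
      refine le_trans ?_ (H_ge_of_prob_le _ _
        (θ := 2050 * D ^ 2 * (2 * P) ^ (J ∩ B τ).card / (∏ j ∈ J, F.p j : ℕ)) fun c => ?_)
      · rw [Real.log_div (by positivity) hN.ne',
          Real.log_mul (x := 2050 * (D : ℝ) ^ 2) (y := (2 * P) ^ _) (by positivity) (by positivity),
          Real.log_pow (2 * (P : ℝ)), Nat.cast_prod, Real.log_prod (fun j _ => by
            exact_mod_cast (F.prime j).ne_zero)]
        simp only [Finset.sum_boole, Finset.filter_mem_eq_inter]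
        linarith
      · rw [prob_rule, div_le_div_iff₀ hE hN]
        refine le_of_eq_of_le ?_ (hB2 τ J (hJ.trans hI) c)
        congr
    rw [E_sub, E_sub, E_const, E_const, E_mul_const] at a2
    linarith
  refine (avg_mono h1).trans ?_
  unfold avg
  rw [E_add, E_const, E_mul_const]
  refine add_le_add le_rfl (mul_le_mul_of_nonneg_right ?_ hlog)
  have h2 : (perms ι).E (fun σ => ν.E (fun τ => ∑ j ∈ I.map σ.toEmbedding,
      if j ∈ B τ then (1 : ℝ) else 0)) = ν.E (fun τ => avg (fun J => ∑ j ∈ J,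
      if j ∈ B τ then (1 : ℝ) else 0) I) := by
    unfold avg E
    simp only [Finset.mul_sum]
    rw [Finset.sum_comm]
    exact Finset.sum_congr rfl fun _ _ => Finset.sum_congr rfl fun _ _ =>
      Finset.sum_congr rfl fun _ _ => by ring
  rw [h2]
  refine E_le_const fun τ => ?_
  rw [avg_sum, hI]
  refine div_le_div_of_nonneg_right ?_ (Nat.cast_nonneg _)
  have : ((B τ).card : ℝ) ≤ 4 * k := by exact_mod_cast hB1 τ
  simp only [Finset.sum_boole, Finset.filter_mem_eq_inter, Finset.univ_inter]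
  nlinarith [Nat.cast_nonneg (α := ℝ) k]

theorem stageA [Fintype ι] {D : ℕ} {z : ℕ → GI} (hz : Walk D z) (hD : 1 ≤ D)
    (F : Fam ι) (P k M S l : ℕ) (hP : 2 ≤ P) (hp : ∀ j, P ≤ F.p j ∧ F.p j ≤ 2 * P)
    (hS : (32 * (2 * P) ^ (2 * k) + 1) ^ 2 ≤ S) (hM : 0 < M) (hMk : M * k ≤ Fintype.card ι)
    (μ : Law ℕ) (hμ : Prep z μ S l) (x err : ℝ) (hx : Bd F z μ (M * k) x)
    (herr : log (2050 * D ^ 2) + 4 * k ^ 2 / Fintype.card ι * log (2 * P) + 2 * lg (D * l) +
      lg (D * (S + l)) / M ≤ 2 * k * err) : Bd F z μ k (x / 2 + err) := by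
  obtain ⟨ν, L, hL, hμ⟩ := hμ
  obtain ⟨B, U, hB, hU, hBU, hsum⟩ := exists_blocks (ι := ι) M k hMk
  set Ω : Law ((ℕ × ℕ) × ℕ × ℕ) := (ν.bind (rule z S)).bind fun ab => (L ab.1).bind fun t =>
    (L ab.2).map fun t' => (ab, t, t') with hΩ
  have m0 : (Ω.map (fun w => w.1)).Eqv (ν.bind (rule z S)) := fun f => by simp [hΩ]
  have m1 : (Ω.map (fun w => w.2.1)).Eqv μ := fun f => by
    rw [hμ f]; simp [hΩ, ruleK]
  have m2 : (Ω.map (fun w => w.2.2)).Eqv μ := fun f => by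
    rw [hμ f]; simp only [hΩ, ruleK, E_map, E_bind, E_const]
    exact congrArg _ (funext fun τ => E_rule_snd z S τ (fun a => (L a).E f))
  have s0 : Ω.All (fun w => Small (D * l) (z w.2.1 - z w.1.1) ∧ Small (D * l) (z w.2.2 - z w.1.2)
      ∧ Small (D * (S + l)) (z w.2.1 - z w.2.2)) := by
    refine all_bind (all_bind (all_true _ fun τ => (rule_all z S τ).mono fun ab h =>
      all_bind ((hL _).mono fun t ht => all_map ((hL _).mono fun t' ht' => ⟨?_, ?_, ?_⟩))))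
    · exact hz.disp' ht.1 ht.2 le_rfl (Nat.le_add_right _ _)
    · exact hz.disp' ht'.1 ht'.2 le_rfl (Nat.le_add_right _ _)
    · exact hz.disp' (t := τ) (a := t) (b := t') (by omega) (by omega) (by omega) (by omega)
  have s1 := H_le_lg Ω _ _ (s0.mono fun _ h => h.1)
  have s2 := H_le_lg Ω _ _ (s0.mono fun _ h => h.2.1)
  have s3 := H_le_lg Ω _ _ (s0.mono fun _ h => h.2.2)
  have key : ∀ σ : Equiv.Perm ι, 2 * ∑ i, Def F z μ ((B i).map σ.toEmbedding) ≤
      ∑ i, (∑ j ∈ (B i).map σ.toEmbedding, log (F.p j) - (ν.bind (rule z S)).H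
        (fun x => F.Ψ ((B i).map σ.toEmbedding) (z x.1 - z x.2))) + M * (2 * lg (D * l)) +
        Def F z μ (U.map σ.toEmbedding) + lg (D * (S + l)) := by
    intro σ
    have h := info_ineq F Ω (fun w => z w.2.1) (fun w => z w.2.2) (fun w => z w.1.1)
      (fun w => z w.1.2) (fun i => (B i).map σ.toEmbedding) (U.map σ.toEmbedding) (fun j => by
        simp only [Finset.mem_map_equiv, hBU])
    have r0 : ∀ J, Ω.H (fun w => F.Ψ J (z w.1.1 - z w.1.2)) =
        (ν.bind (rule z S)).H (fun x => F.Ψ J (z x.1 - z x.2)) :=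
      fun J => H_eq_of_map m0 (fun x => F.Ψ J (z x.1 - z x.2))
    have r1 : ∀ J, Ω.H (fun w => F.Ψ J (z w.2.1)) = μ.H (fun t => F.Ψ J (z t)) :=
      fun J => H_eq_of_map m1 (fun t => F.Ψ J (z t))
    have r2 : ∀ J, Ω.H (fun w => F.Ψ J (z w.2.2)) = μ.H (fun t => F.Ψ J (z t)) :=
      fun J => H_eq_of_map m2 (fun t => F.Ψ J (z t))
    simp only [r0, r1, r2] at h
    have e := hsum (fun j => log (F.p (σ j)))
    unfold Def
    simp only [Finset.sum_sub_distrib, Finset.sum_add_distrib, Finset.sum_const, Finset.card_univ,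
      Fintype.card_fin, nsmul_eq_mul, Finset.sum_map, Equiv.coe_toEmbedding] at h ⊢
    have hM' : (0 : ℝ) ≤ M := Nat.cast_nonneg _
    nlinarith [mul_le_mul_of_nonneg_left s1 hM', mul_le_mul_of_nonneg_left s2 hM']
  intro I hI
  have k2 := E_mono (μ := perms ι) key
  rw [E_const_mul, E_add, E_add, E_add, E_const, E_const, E_sum, E_sum] at k2
  have k3 : ∀ i, (perms ι).E (fun σ => Def F z μ ((B i).map σ.toEmbedding)) =
      avg (Def F z μ) I := fun i => avg_congr (Def F z μ) ((hB i).trans hI.symm)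
  have k4 := Finset.sum_le_sum (s := univ) fun i _ => H_rule_ge hz hD F P k S hP hp hS ν (B i) (hB i)
  have k5 := hx U hU
  simp only [k3] at k2
  unfold avg at k4 k5
  simp only [Finset.sum_const, Finset.card_univ, Fintype.card_fin, nsmul_eq_mul] at k2 k4
  have hM' : (0 : ℝ) < M := by exact_mod_cast hM
  have k6 := mul_le_mul_of_nonneg_left herr hM'.le
  rw [mul_add, mul_add, mul_div_cancel₀ _ hM'.ne'] at k6
  push_cast at k5
  have : (M : ℝ) * avg (Def F z μ) I ≤ M * (k * (x / 2 + err)) := by nlinarith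
  exact le_of_mul_le_mul_left this hM'

end Vale.Agent.P015
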