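import Vale.Agent.P015.StageA

/-! Iterated contraction, light classes, independent samples. -/

namespace Vale.Agent.P015

open Finset Real Vale.Agent.H15 Vale.Agent.H15.Law
open scoped Classical

variable {ι : Type}

theorem stageA_iter [Fintype ι] {D : ℕ} {z : ℕ → GI} (hz : Walk D z) (hD : 1 ≤ D)
    (F : Fam ι) (P M : ℕ) (hP : 2 ≤ P) (hp : ∀ j, P ≤ F.p j ∧ F.p j ≤ 2 * P) (hM : 0 < M)
    (μ : Law ℕ) (err : ℝ) (herr0 : 0 ≤ err) (t : ℕ) : ∀ (k : ℕ) (S l : ℕ → ℕ),
    M ^ t * k ≤ Fintype.card ι →
    (∀ u < t, Prep z μ (S u) (l u) ∧ (32 * (2 * P) ^ (2 * (M ^ u * k)) + 1) ^ 2 ≤ S u ∧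
      log (2050 * D ^ 2) + 4 * ((M ^ u * k : ℕ) : ℝ) ^ 2 / Fintype.card ι * log (2 * P) +
        2 * lg (D * l u) + lg (D * (S u + l u)) / M ≤ 2 * (M ^ u * k : ℕ) * err) →
    Bd F z μ k (log (2 * P) / 2 ^ t + 2 * err) := by
  induction t with
  | zero =>
    intro k S l _ _ I hI
    refine (Bd.triv F z μ k P hp I hI).trans ?_
    gcongr; simp [herr0]
  | succ t ih =>
    intro k S l h1 h2
    have e : ∀ u, M ^ u * (M * k) = M ^ (u + 1) * k := fun u => by ring
    have h3 := ih (M * k) (fun u => S (u + 1)) (fun u => l (u + 1)) (by rw [e]; exact h1)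
      (fun u hu => by rw [e]; exact h2 (u + 1) (by omega))
    obtain ⟨a1, a2, a3⟩ := h2 0 (by omega)
    simp only [pow_zero, one_mul] at a2 a3
    have h4 : M * k ≤ Fintype.card ι := by
      refine le_trans ?_ h1
      rw [← e]; exact Nat.le_mul_of_pos_left _ (by positivity)
    have := stageA hz hD F P k M _ _ hP hp a2 hM h4 μ a1 _ err h3 a3
    convert this using 1
    ring

theorem Bd.sum_le [Fintype ι] {F : Fam ι} {z : ℕ → GI} {μ : Law ℕ} {k : ℕ} {x : ℝ}
    (h : Bd F z μ k x) (hk : 0 < k) (hk' : k ≤ Fintype.card ι) :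
    ∑ j, (log (F.p j) - μ.H (fun t => F.ψ j (z t))) ≤ Fintype.card ι * x := by
  obtain ⟨I, _, hI⟩ := Finset.exists_subset_card_eq (s := (univ : Finset ι)) (n := k) hk'
  have h1 := (avg_mono (I := I) fun J _ => sum_def_le F z μ J).trans (h I hI)
  have h2 : (0 : ℝ) < Fintype.card ι := by exact_mod_cast hk.trans_le hk'
  have h3 : (0 : ℝ) < k := by exact_mod_cast hk
  rw [avg_sum, hI, div_le_iff₀ h2] at h1
  nlinarith

/-- classes of small probability -/
noncomputable def light {α : Type} {p : ℕ} [NeZero p] (μ : Law α) (f : α → ZMod p) (κ : ℝ) :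
    Finset (ZMod p) := univ.filter (fun c => μ.prob f c < κ / p)

theorem light_card_le {α : Type} {p : ℕ} [NeZero p] (μ : Law α) (f : α → ZMod p) :
    ((light μ f (1 / 2)).card : ℝ) ≤ 7 * p * (log p - μ.H f) := by
  have hp : (0 : ℝ) < p := by exact_mod_cast NeZero.pos p
  have h1 : μ.H f = ∑ c, μ.prob f c * - log (μ.prob f c) :=
    E_comp μ f univ (all_true _ fun _ => mem_univ _) (fun c => - log (μ.prob f c))
  have h2 : ∑ c, μ.prob f c = 1 := sum_prob μ f univ (all_true _ fun _ => mem_univ _)
  have h3 : ∀ c, (if μ.prob f c < 1 / 2 / p then (1 : ℝ) else 0) ≤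
      7 * (p * (μ.prob f c * log p + μ.prob f c * log (μ.prob f c)) - p * μ.prob f c + 1) := by
    intro c
    rcases (prob_nonneg μ f c).eq_or_lt with h | h
    · rw [← h]; simp only [zero_mul, add_zero, mul_zero, sub_self, zero_add]
      split_ifs <;> norm_num
    set x := p * μ.prob f c with hx
    have hx0 : 0 < x := mul_pos hp h
    have e : p * (μ.prob f c * log p + μ.prob f c * log (μ.prob f c)) = x * log x := by
      rw [hx, Real.log_mul hp.ne' h.ne']; ring
    rw [e]
    split_ifs with hc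
    · have a1 := Real.one_sub_inv_le_log_of_pos (x := 2 * x) (by positivity)
      rw [Real.log_mul (by norm_num) hx0.ne'] at a1
      have a2 : x < 1 / 2 := by rw [lt_div_iff₀ hp] at hc; rw [hx]; linarith
      have a3 := mul_le_mul_of_nonneg_left a1 hx0.le
      have a4 : x * (1 - (2 * x)⁻¹) = x - 1 / 2 := by field_simp
      have a5 := Real.log_two_lt_d9
      nlinarith
    · have a1 := mul_le_mul_of_nonneg_left (Real.one_sub_inv_le_log_of_pos hx0) hx0.le
      have a4 : x * (1 - x⁻¹) = x - 1 := by field_simp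
      linarith
  have h4 := Finset.sum_le_sum (s := univ) fun c _ => h3 c
  simp only [Finset.sum_boole, ← Finset.mul_sum, Finset.sum_add_distrib, Finset.sum_sub_distrib,
    ← Finset.sum_mul, h2, Finset.sum_const, Finset.card_univ, ZMod.card] at h4
  simp only [mul_neg, Finset.sum_neg_distrib] at h1
  unfold light
  rw [h1]
  simp only [nsmul_eq_mul] at h4
  linarith

theorem cover1 {α : Type} {p : ℕ} [NeZero p] (μ : Law α) (f : α → ZMod p) (B : Finset (ZMod p))
    (m : ℕ) (hm : 16 * p ≤ m * (B.card : ℝ)) :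
    ∑ t : ZMod p, (μ.E (fun x => if t + f x ∈ B then 0 else 1)) ^ m ≤
      p / 16 + 2 * (light μ f (1 / 2)).card := by
  have hp : (0 : ℝ) < p := by exact_mod_cast NeZero.pos p
  have hB : (0 : ℝ) < B.card := by
    rcases (Nat.cast_nonneg (α := ℝ) B.card).eq_or_lt with h | h
    · rw [← h] at hm; linarith
    · exact h
  have h1 : ∀ t : ZMod p, (μ.E (fun x => if t + f x ∈ B then 0 else 1)) ^ m ≤
      1 / 16 + 2 / B.card * ∑ b ∈ B, if b - t ∈ light μ f (1 / 2) then (1 : ℝ) else 0 := by
    intro t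
    have a0 : 0 ≤ μ.E (fun x => if t + f x ∈ B then 0 else 1) :=
      E_nonneg fun x => by split_ifs <;> norm_num
    have a1 : μ.E (fun x => if t + f x ∈ B then 0 else 1) ≤ 1 :=
      E_le_const fun x => by split_ifs <;> norm_num
    have a2 : μ.E (fun x => if t + f x ∈ B then 0 else 1) = 1 - ∑ b ∈ B, μ.prob f (b - t) := by
      unfold prob
      rw [← E_sum, ← E_const μ 1, ← E_sub]
      refine E_congr_all (all_true _ fun x => ?_)
      simp only [E_const, eq_sub_iff_add_eq', Finset.sum_ite_eq]
      split_ifs <;> norm_num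
    set n := ∑ b ∈ B, if b - t ∈ light μ f (1 / 2) then (1 : ℝ) else 0 with hn
    have n0 : 0 ≤ n := Finset.sum_nonneg fun _ _ => by split_ifs <;> norm_num
    by_cases hc : n ≤ B.card / 2
    · have a3 : ∑ b ∈ B, (1 - if b - t ∈ light μ f (1 / 2) then (1 : ℝ) else 0) * (1 / 2 / p) ≤
          ∑ b ∈ B, μ.prob f (b - t) := by
        refine Finset.sum_le_sum fun b _ => ?_
        split_ifs with h
        · simpa using prob_nonneg _ _ _
        · simpa [light] using h
      rw [← Finset.sum_mul, Finset.sum_sub_distrib, ← hn, Finset.sum_const, nsmul_eq_mul,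
        mul_one] at a3
      have a4 : μ.E (fun x => if t + f x ∈ B then 0 else 1) ≤ exp (-(B.card / (4 * p))) := by
        refine le_trans ?_ (Real.add_one_le_exp _)
        have : (B.card : ℝ) / (4 * p) ≤ (B.card - n) * (1 / 2 / p) := by
          rw [div_le_iff₀ (by positivity)]; field_simp; linarith
        linarith
      have a5 : exp (-(B.card / (4 * p))) ^ m ≤ 1 / 16 := by
        rw [← Real.exp_nat_mul]
        have b1 : (m : ℝ) * -(B.card / (4 * p)) ≤ -4 := by
          rw [mul_neg, neg_le_neg_iff, ← mul_div_assoc, le_div_iff₀ (by positivity)]; linarith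
        refine (Real.exp_le_exp.2 b1).trans ?_
        have b2 : (2 : ℝ) ^ 4 ≤ exp 1 ^ 4 := by
          gcongr; linarith [Real.add_one_le_exp 1]
        rw [← Real.exp_nat_mul] at b2
        rw [Real.exp_neg, one_div]
        exact inv_anti₀ (by norm_num) (by norm_num at b2 ⊢; exact b2)
      have := (pow_le_pow_left₀ a0 a4 m).trans a5
      have : 0 ≤ 2 / (B.card : ℝ) * n := by positivity
      linarith
    · have := pow_le_one₀ (n := m) a0 a1
      have : 1 ≤ 2 / (B.card : ℝ) * n := by
        rw [div_mul_eq_mul_div, le_div_iff₀ hB]; linarith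
      linarith
  refine (Finset.sum_le_sum fun t _ => h1 t).trans (le_of_eq ?_)
  rw [Finset.sum_add_distrib, ← Finset.mul_sum, Finset.sum_comm]
  have h2 : ∀ b ∈ B, ∑ t : ZMod p, (if b - t ∈ light μ f (1 / 2) then (1 : ℝ) else 0) =
      (light μ f (1 / 2)).card := by
    intro b _
    refine (Fintype.sum_equiv (Equiv.subLeft b) _
      (fun c => if c ∈ light μ f (1 / 2) then (1 : ℝ) else 0) (fun _ => rfl)).trans ?_
    simp
  rw [Finset.sum_congr rfl h2]
  simp only [Finset.sum_const, Finset.card_univ, ZMod.card, nsmul_eq_mul]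
  field_simp

/-- independent samples -/
noncomputable def iid {α : Type} (K : Law α) : ℕ → Law (List α)
  | 0 => Law.pure []
  | m + 1 => K.bind fun x => (iid K m).map (fun l => x :: l)

theorem E_iid_prod {α : Type} (K : Law α) (f : α → ℝ) (m : ℕ) :
    (iid K m).E (fun l => (l.map f).prod) = (K.E f) ^ m := by
  induction m with
  | zero => simp [iid]
  | succ m ih => simp [iid, E_const_mul, ih, E_mul_const, pow_succ']

theorem E_iid_sum {α : Type} (K : Law α) (f : α → ℝ) (m : ℕ) :
    (iid K m).E (fun l => (l.map f).sum) = m * K.E f := by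
  induction m with
  | zero => simp [iid]
  | succ m ih => simp [iid, E_add, ih]; ring

theorem iid_all {α : Type} {K : Law α} {Q : α → Prop} (h : K.All Q) (m : ℕ) :
    (iid K m).All (fun l => l.length = m ∧ ∀ x ∈ l, Q x) := by
  induction m with
  | zero => exact all_pure (by simp)
  | succ m ih =>
    refine all_bind (h.mono fun x hx => all_map (ih.mono fun l hl => ⟨by simp [hl.1], ?_⟩))
    intro y hy
    rcases List.mem_cons.1 hy with rfl | hy
    · exact hx
    · exact hl.2 y hy

theorem H_list_le {α : Type} (μ : Law α) (X : α → List GI) (m n : ℕ)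
    (h : μ.All (fun x => (X x).length = m ∧ ∀ w ∈ X x, Small n w)) : μ.H X ≤ m * lg n := by
  have h1 := H_le_sum μ (B := fun _ => GI) (fun (i : ℕ) x => (X x).getD i 0) (range m)
    (fun x => fun i : Fin m => (X x).getD i 0)
    (fun x y e => funext fun i => e i (Finset.mem_range.2 i.2))
  have h2 := H_le_of_dep' μ (f := X) (g := fun x => fun i : Fin m => (X x).getD i 0)
    (fun a b e => by
      refine List.ext_getElem ((h a).1.trans (h b).1.symm) fun i h1 h2 => ?_
      have := congrFun e ⟨i, (h a).1 ▸ h1⟩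
      simpa [List.getD_eq_getElem?_getD, h1, h2] using this)
  refine h2.trans (h1.trans ?_)
  have h3 : ∀ i ∈ range m, μ.H (fun x => (X x).getD i 0) ≤ lg n := fun i _ =>
    H_le_lg μ _ n (h.mono fun x hx => by
      by_cases hi : i < (X x).length
      · rw [List.getD_eq_getElem _ _ hi]; exact hx.2 _ (List.getElem_mem hi)
      · rw [List.getD_eq_default _ _ (not_lt.1 hi)]; exact small_zero n)
  simpa using Finset.sum_le_card_nsmul _ _ _ h3

end Vale.Agent.P015
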