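import Vale.Agent.P015.StageB1

/-! Bootstrap: few primes have many light classes. -/

namespace Vale.Agent.P015

open Finset Real Vale.Agent.H15 Vale.Agent.H15.Law
open scoped Classical

variable {ι : Type}

noncomputable def sampleB (ν : Law ℕ) (K : ℕ → Law ℕ) (m : ℕ) : Law (ℕ × List ℕ) :=
  ν.bind fun τ => (K τ).bind fun x0 => (iid (K τ) m).map fun l => (x0, l)

def shape (z : ℕ → GI) (w : ℕ × List ℕ) : List GI := w.2.map (fun x => z x - z w.1)

theorem prod_ind {α : Type} (l : List α) (Q : α → Prop) [DecidablePred Q] :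
    (l.map (fun x => if Q x then (0 : ℝ) else 1)).prod = if ∀ x ∈ l, ¬ Q x then 1 else 0 := by
  induction l with
  | nil => simp
  | cons a l ih =>
    rw [List.map_cons, List.prod_cons, ih]
    by_cases h : Q a <;> simp [h]

theorem one_sub_sum_le {α : Type} (l : List α) (Q : α → Prop) [DecidablePred Q] :
    1 - (l.map (fun x => if Q x then (1 : ℝ) else 0)).sum ≤ if ∀ x ∈ l, ¬ Q x then 1 else 0 := by
  have h0 : ∀ y ∈ l.map (fun x => if Q x then (1 : ℝ) else 0), 0 ≤ y := by
    intro y hy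
    obtain ⟨x, _, rfl⟩ := List.mem_map.1 hy
    split_ifs <;> norm_num
  split_ifs with h
  · linarith [List.sum_nonneg h0]
  · push Not at h
    obtain ⟨x, hx, hq⟩ := h
    have := List.single_le_sum h0 _ (List.mem_map.2 ⟨x, hx, rfl⟩)
    rw [if_pos hq] at this
    linarith

theorem stageB_prime (F : Fam ι) (z : ℕ → GI) (j : ι) (ν : Law ℕ) (K : ℕ → Law ℕ) (m : ℕ)
    (B : Finset (ZMod (F.p j))) (hB : B ⊆ light (ν.bind K) (fun t => F.ψ j (z t)) (1 / 340))
    (h1 : 16 * F.p j ≤ m * (B.card : ℝ)) (h2 : m * (B.card : ℝ) ≤ 34 * F.p j) :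
    (sampleB ν K m).Hc (fun w => F.ψ j (z w.1)) (shape z) ≤ log (F.p j) - 3 / 2 +
      224 * ν.E (fun τ => log (F.p j) - (K τ).H (fun t => F.ψ j (z t))) := by
  have hp : (0 : ℝ) < F.p j := by exact_mod_cast (F.prime j).pos
  set Al : List GI → Finset (ZMod (F.p j)) :=
    fun X => univ.filter (fun y => ∀ w ∈ X, ¬ (y + F.ψ j w ∈ B)) with hAl
  have g := gibbs (sampleB ν K m) (fun w => F.ψ j (z w.1)) (shape z)
    (fun b w => (if b ∈ Al (shape z w) then (1 : ℝ) / (Al (shape z w)).card else 0) / 2 +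
      1 / (2 * F.p j)) (fun b x y h => by rw [h]) (fun b x => by positivity)
    (fun x s => by
      rw [Finset.sum_add_distrib, ← Finset.sum_div, Finset.sum_const, nsmul_eq_mul]
      have a1 := sum_ite_div_card_le (Al (shape z x)) s
      have a2 : (s.card : ℝ) ≤ F.p j := by
        have := Finset.card_le_univ s
        rw [ZMod.card] at this; exact_mod_cast this
      have a3 : (s.card : ℝ) * (1 / (2 * F.p j)) ≤ 1 / 2 := by
        rw [mul_one_div, div_le_div_iff₀ (by positivity) (by norm_num)]; linarith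
      have a4 : ∑ b ∈ s, (if b ∈ Al (shape z x) then (1 : ℝ) / (Al (shape z x)).card else 0)
          ≤ 1 := by convert a1
      linarith)
    (fun i _ => by beta_reduce; positivity)
  refine g.trans ?_
  have l2 := Real.log_two_lt_d9
  have l2' := Real.log_two_gt_d9
  have pw : ∀ w : ℕ × List ℕ, - log ((if F.ψ j (z w.1) ∈ Al (shape z w) then
      (1 : ℝ) / (Al (shape z w)).card else 0) / 2 + 1 / (2 * F.p j)) ≤
      (log (F.p j) + log 2 - (4 * log 2 + 1)) + 16 / F.p j * (Al (shape z w)).card +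
      (4 * log 2 + 1) * (w.2.map (fun x => if F.ψ j (z x) ∈ B then (1 : ℝ) else 0)).sum := by
    intro w
    have b1 := one_sub_sum_le w.2 (fun x => F.ψ j (z x) ∈ B)
    have b2 : F.ψ j (z w.1) ∈ Al (shape z w) ↔ ∀ x ∈ w.2, ¬ (F.ψ j (z x) ∈ B) := by
      simp [hAl, shape, F.ψ_sub]
    have b0 : 0 ≤ 16 / (F.p j : ℝ) * (Al (shape z w)).card := by positivity
    by_cases h : F.ψ j (z w.1) ∈ Al (shape z w)
    · rw [if_pos (b2.1 h)] at b1
      rw [if_pos h]
      have c0 : (0 : ℝ) < (Al (shape z w)).card := by exact_mod_cast Finset.card_pos.2 ⟨_, h⟩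
      have c1 : log (1 / (Al (shape z w)).card / 2) ≤ log (1 / (Al (shape z w)).card / 2 +
          1 / (2 * F.p j)) := Real.log_le_log (by positivity) (le_add_of_nonneg_right (by positivity))
      rw [Real.log_div (by positivity) (by norm_num), one_div, Real.log_inv] at c1
      have c2 := Real.log_le_sub_one_of_pos (x := 16 / F.p j * (Al (shape z w)).card)
        (by positivity)
      rw [Real.log_mul (by positivity) c0.ne', Real.log_div (by norm_num) hp.ne',
        show (16 : ℝ) = 2 ^ 4 by norm_num, Real.log_pow] at c2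
      rw [one_div]
      push_cast at c2
      nlinarith
    · rw [if_neg (fun h' => h (b2.2 h'))] at b1
      rw [if_neg h, zero_div, zero_add, one_div, Real.log_inv, neg_neg,
        Real.log_mul (by norm_num) hp.ne']
      nlinarith
  refine (E_mono pw).trans ?_
  rw [E_add, E_add, E_const, E_const_mul, E_const_mul]
  have e1 : (sampleB ν K m).E (fun w => (w.2.map
      (fun x => if F.ψ j (z x) ∈ B then (1 : ℝ) else 0)).sum) ≤ 1 / 10 := by
    simp only [sampleB, E_bind, E_map, E_iid_sum, E_const, E_const_mul]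
    have d1 := sum_prob_eq (ν.bind K) (fun t => F.ψ j (z t)) B
    rw [E_bind] at d1
    have d2 : ∑ b ∈ B, (ν.bind K).prob (fun t => F.ψ j (z t)) b ≤ B.card * (1 / 340 / F.p j) := by
      rw [← nsmul_eq_mul]
      exact Finset.sum_le_card_nsmul _ _ _ fun b hb => (Finset.mem_filter.1 (hB hb)).2.le
    have d3 : (m : ℝ) * (B.card * (1 / 340 / F.p j)) ≤ 1 / 10 := by
      rw [← mul_assoc, ← mul_div_assoc, div_le_iff₀ hp]; linarith
    refine le_trans (mul_le_mul_of_nonneg_left (le_of_eq_of_le ?_ d2) (Nat.cast_nonneg _)) d3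
    rw [d1]; congr!
  have e2 : (sampleB ν K m).E (fun w => ((Al (shape z w)).card : ℝ)) ≤ F.p j / 16 +
      14 * F.p j * ν.E (fun τ => log (F.p j) - (K τ).H (fun t => F.ψ j (z t))) := by
    rw [← E_const_mul, ← E_const ν (F.p j / 16), ← E_add]
    simp only [sampleB, E_bind, E_map]
    refine E_mono fun τ => E_le_const fun x0 => ?_
    have d1 : ∀ l : List ℕ, ((Al (shape z (x0, l))).card : ℝ) = ∑ t : ZMod (F.p j),
        (l.map (fun x => if t + F.ψ j (z x) ∈ B then (0 : ℝ) else 1)).prod := by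
      intro l
      simp only [prod_ind, Finset.sum_boole]
      congr 1
      refine Finset.card_bij' (fun y _ => y - F.ψ j (z x0)) (fun y _ => y + F.ψ j (z x0)) ?_ ?_
        (by simp) (by simp)
      · intro y hy
        simp only [hAl, shape, Finset.mem_filter, Finset.mem_univ, true_and, List.mem_map,
          forall_exists_index, and_imp, forall_apply_eq_imp_iff₂, F.ψ_sub] at hy ⊢
        intro x hx; convert hy x hx using 2; ring
      · intro y hy
        simp only [hAl, shape, Finset.mem_filter, Finset.mem_univ, true_and, List.mem_map,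
          forall_exists_index, and_imp, forall_apply_eq_imp_iff₂, F.ψ_sub] at hy ⊢
        intro x hx; convert hy x hx using 2; ring
    simp only [d1, E_sum, E_iid_prod]
    have d2 := cover1 (K τ) (fun t => F.ψ j (z t)) B m h1
    have d3 := light_card_le (K τ) (fun t => F.ψ j (z t))
    have d4 : ∑ t : ZMod (F.p j), ((K τ).E (fun x => if t + F.ψ j (z x) ∈ B then 0 else 1)) ^ m ≤
      F.p j / 16 + 2 * (light (K τ) (fun t => F.ψ j (z t)) (1 / 2)).card := by convert d2
    linarith
  have e3 := mul_le_mul_of_nonneg_left e2 (show (0 : ℝ) ≤ 16 / F.p j by positivity)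
  have e4 : 16 / (F.p j : ℝ) * (F.p j / 16 +
      14 * F.p j * ν.E (fun τ => log (F.p j) - (K τ).H (fun t => F.ψ j (z t)))) =
      1 + 224 * ν.E (fun τ => log (F.p j) - (K τ).H (fun t => F.ψ j (z t))) := by
    field_simp; ring
  nlinarith

theorem stageB [Fintype ι] {D : ℕ} {z : ℕ → GI} (hz : Walk D z) (F : Fam ι) (ν : Law ℕ)
    (K : ℕ → Law ℕ) (l m k : ℕ) (hK : Span K l) (β δ : ℝ) (hβ : ∀ j, 1 ≤ β * F.p j)
    (hm1 : 16 ≤ m * β) (hm2 : m * β ≤ 17) (hk : 0 < k) (hk' : k ≤ Fintype.card ι)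
    (h1 : ∀ τ, ∑ j, (log (F.p j) - (K τ).H (fun t => F.ψ j (z t))) ≤ Fintype.card ι * δ)
    (h2 : Bd F z (ν.bind K) k δ) :
    3 / 2 * ∑ j, (if β * F.p j ≤ (light (ν.bind K) (fun t => F.ψ j (z t)) (1 / 340)).card
      then (1 : ℝ) else 0) ≤ Fintype.card ι * (225 * δ + m * lg (D * l) / k) := by
  set bad : ι → ℝ := fun j => if β * F.p j ≤
    (light (ν.bind K) (fun t => F.ψ j (z t)) (1 / 340)).card then (1 : ℝ) else 0 with hbad
  set d : ι → ℝ := fun j => ν.E (fun τ => log (F.p j) - (K τ).H (fun t => F.ψ j (z t))) with hd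
  have a1 : ∀ j, (sampleB ν K m).Hc (fun w => F.ψ j (z w.1)) (shape z) ≤
      log (F.p j) - 3 / 2 * bad j + 224 * d j := by
    intro j
    have d0 : 0 ≤ d j := E_nonneg fun τ => sub_nonneg.2 (H_ψ_le F _ j _)
    simp only [hbad]
    split_ifs with h
    · obtain ⟨B, hB1, hB2⟩ := Finset.exists_subset_card_eq (Nat.ceil_le.2 h)
      have hp : (0 : ℝ) < F.p j := by exact_mod_cast (F.prime j).pos
      have c1 : β * F.p j ≤ B.card := hB2 ▸ Nat.le_ceil _
      have c2 : (B.card : ℝ) ≤ 2 * (β * F.p j) := by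
        have := Nat.ceil_lt_add_one (a := β * F.p j) (by linarith [hβ j])
        rw [hB2]; linarith [hβ j]
      have hm : (0 : ℝ) ≤ m := Nat.cast_nonneg _
      have := stageB_prime F z j ν K m B hB1 (by nlinarith) (by nlinarith)
      linarith
    · have := (Hc_le_H (sampleB ν K m) (fun w => F.ψ j (z w.1)) (shape z)).trans (H_ψ_le F _ j _)
      linarith
  have a2 : (sampleB ν K m).H (shape z) ≤ m * lg (D * l) := by
    refine H_list_le _ _ _ _ (all_bind (all_true _ fun τ => all_bind ((hK τ).mono fun x0 h0 =>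
      all_map ((iid_all (hK τ) m).mono fun L hL => ⟨by simp [shape, hL.1], ?_⟩))))
    intro w hw
    obtain ⟨x, hx, rfl⟩ := List.mem_map.1 hw
    exact hz.disp' (hL.2 x hx).1 (hL.2 x hx).2 h0.1 h0.2
  have m1 : ((sampleB ν K m).map (fun w => w.1)).Eqv (ν.bind K) := fun f => by simp [sampleB]
  have a3 : ∀ J : Finset ι, ∑ j ∈ J, (3 / 2 * bad j - 224 * d j) ≤
      Def F z (ν.bind K) J + m * lg (D * l) := by
    intro J
    have b1 := H_le_Hc_add (sampleB ν K m) (fun w => F.Ψ J (z w.1)) (shape z)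
    have b2 := Hc_le_sum (sampleB ν K m) (fun j w => F.ψ j (z w.1)) (shape z) J
      (fun w => F.Ψ J (z w.1)) fun _ _ h => (F.Ψ_eq_iff _ _ _).2 h
    have b3 := Finset.sum_le_sum (s := J) fun j _ => a1 j
    rw [H_eq_of_map m1 (fun t => F.Ψ J (z t))] at b1
    unfold Def
    simp only [Finset.sum_add_distrib, Finset.sum_sub_distrib] at b3 ⊢
    linarith
  obtain ⟨I, _, hI⟩ := Finset.exists_subset_card_eq (s := (univ : Finset ι)) (n := k) hk'
  have a4 := avg_mono (I := I) fun J _ => a3 J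
  have a5 := h2 I hI
  rw [avg_sum, hI] at a4
  unfold avg at a4 a5
  rw [E_add, E_const] at a4
  have a6 : ∑ j, d j ≤ Fintype.card ι * δ := by
    simp only [hd]; rw [← E_sum]; exact E_le_const h1
  have h3 : (0 : ℝ) < Fintype.card ι := by exact_mod_cast hk.trans_le hk'
  have h4 : (0 : ℝ) < k := by exact_mod_cast hk
  rw [div_le_iff₀ h3, Finset.sum_sub_distrib, ← Finset.mul_sum, ← Finset.mul_sum] at a4
  have : (k : ℝ) * (3 / 2 * ∑ j, bad j) ≤
      k * (Fintype.card ι * (225 * δ + m * lg (D * l) / k)) := by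
    have e : (k : ℝ) * (Fintype.card ι * (225 * δ + m * lg (D * l) / k)) =
        (k * δ + m * lg (D * l)) * Fintype.card ι + 224 * k * (Fintype.card ι * δ) := by
      field_simp; ring
    rw [e]; nlinarith
  exact le_of_mul_le_mul_left this h4

end Vale.Agent.P015
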