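import Vale.Agent.P015.StageB2

/-! Tree samplers and their shape entropy. -/

namespace Vale.Agent.P015

open Finset Real Vale.Agent.H15 Vale.Agent.H15.Law
open scoped Classical

abbrev Sampler : Type 1 := ℕ → Law (List ℕ × List ℕ)

noncomputable def Pre (K : ℕ → Law ℕ) (T : Sampler) : Sampler := fun τ => (K τ).bind T

noncomputable def Dbl (b : ℕ) (T : Sampler) : Sampler := fun τ =>
  (T τ).bind fun a => (T (τ + b)).map fun a' => (a.1 ++ a'.1, a.2 ++ a'.2)

noncomputable def Mark (T : Sampler) : Sampler := fun τ => (T τ).map fun a => (a.1, [τ])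

def Good (T : Sampler) (m b : ℕ) : Prop :=
  ∀ τ, (T τ).All (fun a => a.1.length = m ∧ a.1.Nodup ∧ ∀ x ∈ a.1, τ ≤ x ∧ x < τ + b)

theorem Good.pre {T : Sampler} {m b s : ℕ} {K : ℕ → Law ℕ} (h : Good T m b) (hK : Span K s) :
    Good (Pre K T) m (s + b) := fun τ =>
  all_bind ((hK τ).mono fun t ht => (h t).mono fun a ha => ⟨ha.1, ha.2.1, fun x hx => by
    have := ha.2.2 x hx; omega⟩)

theorem Good.dbl {T : Sampler} {m b : ℕ} (h : Good T m b) : Good (Dbl b T) (2 * m) (2 * b) := by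
  intro τ
  refine all_bind ((h τ).mono fun a ha => all_map ((h (τ + b)).mono fun a' ha' => ⟨?_, ?_, ?_⟩))
  · simp [ha.1, ha'.1]; omega
  · refine List.Nodup.append ha.2.1 ha'.2.1 fun x h1 h2 => ?_
    have := ha.2.2 x h1; have := ha'.2.2 x h2; omega
  · intro x hx
    rcases List.mem_append.1 hx with h1 | h1
    · have := ha.2.2 x h1; omega
    · have := ha'.2.2 x h1; omega

theorem Good.mark {T : Sampler} {m b : ℕ} (h : Good T m b) : Good (Mark T) m b := h

theorem Good.mono {T : Sampler} {m b b' : ℕ} (h : Good T m b) (hb : b ≤ b') : Good T m b' :=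
  fun τ => (h τ).mono fun a ha => ⟨ha.1, ha.2.1, fun x hx => by have := ha.2.2 x hx; omega⟩

noncomputable def J (T : Sampler) (ν : Law ℕ) : Law (ℕ × List ℕ) :=
  ν.bind fun τ => (T τ).map fun a => (τ, a.1)

/-- conditional shape entropy -/
noncomputable def HS {A : Type} (z : ℕ → GI) (T : Sampler) (ν : Law ℕ) (y : GI → A) : ℝ :=
  (J T ν).Hc (shape z) (fun w => y (z w.1))

def Transl {A : Type} (y : GI → A) : Prop := ∀ v v' w, y v = y v' → y (v + w) = y (v' + w)

theorem shape_shift (z : ℕ → GI) (τ τ' : ℕ) (l : List ℕ) :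
    shape z (τ, l) = (shape z (τ', l)).map (fun w => w + (z τ' - z τ)) := by
  simp [shape, List.map_map, Function.comp_def]

theorem Transl.dep {A : Type} {y : GI → A} (hy : Transl y) {a b a' b' : GI}
    (h1 : b - a = b' - a') (h2 : y a = y a') : y b = y b' := by
  have := hy _ _ (b - a) h2
  rwa [add_sub_cancel, h1, add_sub_cancel] at this

theorem HS_pre {A : Type} {D : ℕ} {z : ℕ → GI} (hz : Walk D z) (T : Sampler) (K : ℕ → Law ℕ)
    (s : ℕ) (hK : Span K s) (ν : Law ℕ) {y : GI → A} (hy : Transl y) :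
    HS z (Pre K T) ν y ≤ lg (D * s) + HS z T (ν.bind K) y := by
  set Ω : Law (ℕ × ℕ × List ℕ) := ν.bind fun τ => (K τ).bind fun τ' =>
    (T τ').map fun a => (τ, τ', a.1) with hΩ
  have m1 : (Ω.map (fun w => (w.1, w.2.2))).Eqv (J (Pre K T) ν) := fun f => by simp [hΩ, J, Pre]
  have m2 : (Ω.map (fun w => w.2)).Eqv (J T (ν.bind K)) := fun f => by simp [hΩ, J]
  unfold HS
  rw [← Hc_eq_of_map m1, ← Hc_eq_of_map m2]
  have a1 := Hc_chain Ω (F := fun w => shape z (w.1, w.2.2)) (f := fun w => z w.2.1 - z w.1)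
    (f' := fun w => shape z w.2) (g := fun w => y (z w.1)) (fun a b e1 e2 _ => by
      rw [shape_shift z a.1 a.2.1, shape_shift z b.1 b.2.1, e1]
      exact congrArg _ e2)
  have a2 := Hc_le_of_dep_right Ω (fun w => shape z w.2)
    (g := fun w => (z w.2.1 - z w.1, y (z w.1))) (g' := fun w => y (z w.2.1))
    (fun a b e => hy.dep (Prod.ext_iff.1 e).1 (Prod.ext_iff.1 e).2)
  have a3 := Hc_le_H Ω (fun w => z w.2.1 - z w.1) (fun w => y (z w.1))
  have a4 := H_le_lg Ω (fun w => z w.2.1 - z w.1) (D * s)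
    (all_bind (all_true _ fun τ => all_bind ((hK τ).mono fun t ht => all_map (all_true _ fun a =>
      hz.disp' ht.1 ht.2 le_rfl (Nat.le_add_right _ _)))))
  linarith

theorem HS_dbl {A : Type} {D : ℕ} {z : ℕ → GI} (hz : Walk D z) (T : Sampler)
    (b : ℕ) (ν : Law ℕ) {y : GI → A} (hy : Transl y) :
    HS z (Dbl b T) ν y ≤ lg (D * b) + HS z T ν y + HS z T (ν.map (· + b)) y := by
  set Ω : Law (ℕ × List ℕ × List ℕ) := ν.bind fun τ => (T τ).bind fun a =>
    (T (τ + b)).map fun a' => (τ, a.1, a'.1) with hΩ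
  have m0 : (Ω.map (fun w => (w.1, w.2.1 ++ w.2.2))).Eqv (J (Dbl b T) ν) :=
    fun f => by simp [hΩ, J, Dbl]
  have m1 : (Ω.map (fun w => (w.1, w.2.1))).Eqv (J T ν) := fun f => by simp [hΩ, J]
  have m2 : (Ω.map (fun w => (w.1 + b, w.2.2))).Eqv (J T (ν.map (· + b))) :=
    fun f => by simp [hΩ, J]
  unfold HS
  rw [← Hc_eq_of_map m0, ← Hc_eq_of_map m1, ← Hc_eq_of_map m2]
  have a0 := Hc_le_add Ω (F := fun w => shape z (w.1, w.2.1 ++ w.2.2))
    (f := fun w => shape z (w.1, w.2.1)) (f' := fun w => shape z (w.1, w.2.2))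
    (g := fun w => y (z w.1)) (fun a b e1 e2 _ => by
      simp only [shape, List.map_append] at e1 e2 ⊢
      rw [e1, e2])
  have a1 := Hc_chain Ω (F := fun w => shape z (w.1, w.2.2)) (f := fun w => z (w.1 + b) - z w.1)
    (f' := fun w => shape z (w.1 + b, w.2.2)) (g := fun w => y (z w.1)) (fun a c e1 e2 _ => by
      rw [shape_shift z a.1 (a.1 + b), shape_shift z c.1 (c.1 + b), e1]
      exact congrArg _ e2)
  have a2 := Hc_le_of_dep_right Ω (fun w => shape z (w.1 + b, w.2.2))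
    (g := fun w => (z (w.1 + b) - z w.1, y (z w.1))) (g' := fun w => y (z (w.1 + b)))
    (fun a b e => hy.dep (Prod.ext_iff.1 e).1 (Prod.ext_iff.1 e).2)
  have a3 := Hc_le_H Ω (fun w => z (w.1 + b) - z w.1) (fun w => y (z w.1))
  have a4 := H_le_lg Ω (fun w => z (w.1 + b) - z w.1) (D * b) (all_true _ fun w => hz.disp _ _)
  linarith

theorem HS_mark {A : Type} (z : ℕ → GI) (T : Sampler) (ν : Law ℕ) (y : GI → A) :
    HS z (Mark T) ν y = HS z T ν y := rfl

theorem transl_unit : Transl (fun _ : GI => ()) := fun _ _ _ _ => rfl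

theorem transl_Ψ {ι : Type} (F : Fam ι) (I : Finset ι) : Transl (F.Ψ I) := by
  intro v v' w h
  rw [F.Ψ_eq_iff] at h ⊢
  intro j hj
  rw [F.ψ_add, F.ψ_add, h j hj]

theorem HS_unit_eq (z : ℕ → GI) (T : Sampler) (ν : Law ℕ) :
    HS z T ν (fun _ => ()) = (J T ν).H (shape z) := Hc_unit _ _

theorem HS_nonneg {A : Type} (z : ℕ → GI) (T : Sampler) (ν : Law ℕ) (y : GI → A) :
    0 ≤ HS z T ν y := Hc_nonneg _ _ _

theorem HS_unit_le {ι : Type} (F : Fam ι) (I : Finset ι) (z : ℕ → GI) (T : Sampler) (ν : Law ℕ) :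
    HS z T ν (fun _ => ()) ≤ HS z T ν (F.Ψ I) + ∑ j ∈ I, log (F.p j) := by
  rw [HS_unit_eq]
  have a1 := H_le_Hc_add (J T ν) (shape z) (fun w => F.Ψ I (z w.1))
  have a2 := H_Ψ_le_sum F (J T ν) I (fun w : ℕ × List ℕ => z w.1)
  have a3 := Finset.sum_le_sum (s := I) fun j _ => H_ψ_le F (J T ν) j (fun w => F.ψ j (z w.1))
  unfold HS
  linarith

/-- uniform law on the entries of a list -/
noncomputable def lunif (l : List ℕ) : Law ℕ :=
  if h : l.toFinset.Nonempty then unif l.toFinset h else Law.pure 0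

noncomputable def leafK (T : Sampler) (τ : ℕ) : Law ℕ := (T τ).bind fun a => lunif a.1

theorem E_leafK {T : Sampler} {m b : ℕ} (h : Good T m b) (hm : 0 < m) (τ : ℕ) (f : ℕ → ℝ) :
    (leafK T τ).E f = (T τ).E (fun a => (a.1.map f).sum) / m := by
  unfold leafK
  rw [E_bind, ← E_div_const]
  refine E_congr_all ((h τ).mono fun a ha => ?_)
  have h1 : a.1.toFinset.Nonempty := by
    rw [List.toFinset_nonempty_iff]; rintro e; rw [e] at ha; simp at ha; omega
  unfold lunif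
  rw [dif_pos h1, E_unif, List.toFinset_card_of_nodup ha.2.1, ha.1, List.sum_toFinset _ ha.2.1]

theorem span_leafK {T : Sampler} {m b : ℕ} (h : Good T m b) (hm : 0 < m) : Span (leafK T) b := by
  intro τ
  refine all_bind ((h τ).mono fun a ha => ?_)
  have h1 : a.1.toFinset.Nonempty := by
    rw [List.toFinset_nonempty_iff]; rintro e; rw [e] at ha; simp at ha; omega
  unfold lunif
  rw [dif_pos h1]
  exact all_unif fun x hx => by have := ha.2.2 x (List.mem_toFinset.1 hx); omega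

theorem Span.bind {K L : ℕ → Law ℕ} {s l : ℕ} (hK : Span K s) (hL : Span L l) :
    Span (fun t => (K t).bind L) (s + l) := fun t =>
  all_bind ((hK t).mono fun x hx => (hL x).mono fun y hy => by omega)

theorem Span.mono {K : ℕ → Law ℕ} {s l : ℕ} (hK : Span K s) (h : s ≤ l) : Span K l :=
  fun t => (hK t).mono fun x hx => by omega

theorem span_rule (z : ℕ → GI) (S : ℕ) : Span (ruleK z S) S := ruleK_all z S

theorem Prep.bind {z : ℕ → GI} {μ : Law ℕ} {S l s : ℕ} (h : Prep z μ S l) {K : ℕ → Law ℕ}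
    (hK : Span K s) : Prep z (μ.bind K) S (l + s) := by
  obtain ⟨ν, L, hL, e⟩ := h
  exact ⟨ν, _, hL.bind hK, fun f => by rw [E_bind, e]; simp⟩

theorem Prep.mono {z : ℕ → GI} {μ : Law ℕ} {S l l' : ℕ} (h : Prep z μ S l) (hl : l ≤ l') :
    Prep z μ S l' := by
  obtain ⟨ν, L, hL, e⟩ := h
  exact ⟨ν, L, hL.mono hl, e⟩

theorem Prep.shift {z : ℕ → GI} {μ : Law ℕ} {S l : ℕ} (h : Prep z μ S l) (b : ℕ) :
    Prep z (μ.map (· + b)) S (l + b) := by
  obtain ⟨ν, L, hL, e⟩ := h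
  refine ⟨ν, fun t => (L t).map (· + b), fun t => all_map ((hL t).mono fun x hx => ?_),
    fun f => by rw [E_map, e]; simp⟩
  omega

theorem Prep.rule (z : ℕ → GI) (ν : Law ℕ) (S : ℕ) : Prep z (ν.bind (ruleK z S)) S 0 :=
  ⟨ν, Law.pure, fun t => all_pure (by simp), fun f => by simp⟩

theorem Prep.congr {z : ℕ → GI} {μ μ' : Law ℕ} {S l : ℕ} (h : Prep z μ S l) (e : μ'.Eqv μ) :
    Prep z μ' S l := by
  obtain ⟨ν, L, hL, e'⟩ := h
  exact ⟨ν, L, hL, e.trans e'⟩

end Vale.Agent.P015
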