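import Vale.Agent.P015.StageC1

/-! Coverage of residue classes by tree samples. -/

namespace Vale.Agent.P015

open Finset Real Vale.Agent.H15 Vale.Agent.H15.Law
open scoped Classical

inductive Built (T0 : Sampler) : ℕ → Sampler → Prop
  | base : Built T0 0 T0
  | pre (K : ℕ → Law ℕ) (T : Sampler) (n : ℕ) : Built T0 n T → Built T0 n (Pre K T)
  | dbl (b : ℕ) (T : Sampler) (n : ℕ) : Built T0 n T → Built T0 (n + 1) (Dbl b T)

theorem Built.marks {T0 T : Sampler} {n : ℕ} (h : Built T0 n T)
    (h0 : ∀ τ, (T0 τ).All (fun a => a.2.length = 1)) :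
    ∀ τ, (T τ).All (fun a => a.2.length = 2 ^ n) := by
  induction h with
  | base => exact h0
  | pre K T n _ ih => exact fun τ => all_bind (all_true _ ih)
  | dbl b T n _ ih =>
    exact fun τ => all_bind ((ih τ).mono fun a ha => all_map ((ih _).mono fun a' ha' => by
      simp only [List.length_append, ha, ha']; ring))

theorem list_sum_le {α : Type} (l : List α) (f : α → ℝ) (c : ℝ) (h : ∀ x, f x ≤ c) :
    (l.map f).sum ≤ l.length * c := by
  have := List.sum_le_card_nsmul (l.map f) c (fun y hy => by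
    obtain ⟨x, _, rfl⟩ := List.mem_map.1 hy; exact h x)
  simpa using this

theorem list_sum_comm {α κ : Type} (l : List α) (s : Finset κ) (f : κ → α → ℝ) :
    (l.map (fun t => ∑ c ∈ s, f c t)).sum = ∑ c ∈ s, (l.map (f c)).sum := by
  induction l with
  | nil => simp
  | cons a l ih => simp only [List.map_cons, List.sum_cons, ih, Finset.sum_add_distrib]

theorem list_sum_nonneg {α : Type} (l : List α) (f : α → ℝ) (h : ∀ x, 0 ≤ f x) :
    0 ≤ (l.map f).sum := List.sum_nonneg fun y hy => by
  obtain ⟨x, _, rfl⟩ := List.mem_map.1 hy; exact h x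

theorem list_prod_nonneg {α : Type} (l : List α) (f : α → ℝ) (h : ∀ x, 0 ≤ f x) :
    0 ≤ (l.map f).prod := List.prod_nonneg fun y hy => by
  obtain ⟨x, _, rfl⟩ := List.mem_map.1 hy; exact h x

theorem Built.cov {T0 T : Sampler} {n : ℕ} (h : Built T0 n T) (φ ω bb : ℕ → ℝ) (s : ℝ)
    (hφ : ∀ x, 0 ≤ φ x) (hω : ∀ x, 0 ≤ ω x) (hb0 : ∀ x, 0 ≤ bb x) (hb1 : ∀ x, bb x ≤ 1)
    (hs0 : 0 ≤ s) (hs1 : s ≤ 1) (h0 : ∀ τ, (T0 τ).All (fun a => a.2.length = 1))
    (h1 : ∀ τ, (T0 τ).E (fun a => (a.1.map φ).prod * (a.2.map ω).prod) ≤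
      s + (1 - s) * (T0 τ).E (fun a => (a.2.map bb).sum)) :
    ∀ τ, (T τ).E (fun a => (a.1.map φ).prod * (a.2.map ω).prod) ≤
      s ^ 2 ^ n + (1 - s ^ 2 ^ n) * ((T τ).E (fun a => (a.2.map bb).sum) / 2 ^ n) := by
  induction h with
  | base => simpa using h1
  | pre K T n _ ih =>
    intro τ
    simp only [Pre, E_bind]
    refine (E_mono ih).trans (le_of_eq ?_)
    rw [E_add, E_const, E_const_mul, E_div_const]
  | dbl b T n hT ih =>
    intro τ
    have e1 : (Dbl b T τ).E (fun a => (a.1.map φ).prod * (a.2.map ω).prod) =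
        (T τ).E (fun a => (a.1.map φ).prod * (a.2.map ω).prod) *
        (T (τ + b)).E (fun a => (a.1.map φ).prod * (a.2.map ω).prod) := by
      simp only [Dbl, E_bind, E_map, List.map_append, List.prod_append]
      rw [← E_mul_const]
      refine E_congr_all (all_true _ fun a => ?_)
      rw [← E_const_mul]
      exact E_congr_all (all_true _ fun a' => by ring)
    have e2 : (Dbl b T τ).E (fun a => (a.2.map bb).sum) =
        (T τ).E (fun a => (a.2.map bb).sum) + (T (τ + b)).E (fun a => (a.2.map bb).sum) := by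
      simp only [Dbl, E_bind, E_map, List.map_append, List.sum_append, E_add, E_const]
    have b0 : ∀ t, 0 ≤ (T t).E (fun a => (a.2.map bb).sum) / 2 ^ n := fun t =>
      div_nonneg (E_nonneg fun a => list_sum_nonneg _ _ hb0) (by positivity)
    have b1 : ∀ t, (T t).E (fun a => (a.2.map bb).sum) / 2 ^ n ≤ 1 := fun t => by
      rw [div_le_one (by positivity)]
      exact E_le_const_all ((hT.marks h0 t).mono fun a ha => by
        have := list_sum_le a.2 bb 1 hb1
        rw [ha] at this; simpa using this)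
    have w0 : ∀ t, 0 ≤ (T t).E (fun a => (a.1.map φ).prod * (a.2.map ω).prod) := fun t =>
      E_nonneg fun a => mul_nonneg (list_prod_nonneg _ _ hφ) (list_prod_nonneg _ _ hω)
    rw [e1, e2]
    refine (mul_le_mul (ih τ) (ih (τ + b)) (w0 _) ((w0 τ).trans (ih τ))).trans ?_
    have e3 : s ^ 2 ^ (n + 1) = (s ^ 2 ^ n) ^ 2 := by rw [← pow_mul, pow_succ]
    have e4 : ∀ x y : ℝ, (x + y) / 2 ^ (n + 1) = (x / 2 ^ n + y / 2 ^ n) / 2 := fun x y => by
      rw [pow_succ]; field_simp
    rw [e3, e4]
    have s0 : 0 ≤ s ^ 2 ^ n := by positivity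
    have s1 : s ^ 2 ^ n ≤ 1 := pow_le_one₀ hs0 hs1
    generalize s ^ 2 ^ n = u at *
    have x0 := b0 τ; have x1 := b1 τ; have y0 := b0 (τ + b); have y1 := b1 (τ + b)
    generalize (T τ).E (fun a => (a.2.map bb).sum) / 2 ^ n = x at *
    generalize (T (τ + b)).E (fun a => (a.2.map bb).sum) / 2 ^ n = y at *
    have : 0 ≤ (1 - u) ^ 2 * (x * (1 - y) + y * (1 - x)) := by
      have := mul_nonneg x0 (sub_nonneg.2 y1); have := mul_nonneg y0 (sub_nonneg.2 x1)
      positivity
    nlinarith

theorem prod_le_one_sub {α β : Type} (l : List α) (f : α → β) (c : β) (h : (l.map f).Nodup) :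
    (l.map (fun x => if f x = c then (0 : ℝ) else 1)).prod ≤
      1 - (l.map (fun x => if f x = c then (1 : ℝ) else 0)).sum := by
  induction l with
  | nil => simp
  | cons a l ih =>
    rw [List.map_cons, List.nodup_cons] at h
    simp only [List.map_cons, List.prod_cons, List.sum_cons]
    by_cases e : f a = c
    · have : (l.map (fun x => if f x = c then (1 : ℝ) else 0)).sum = 0 := by
        refine List.sum_eq_zero fun y hy => ?_
        obtain ⟨x, hx, rfl⟩ := List.mem_map.1 hy
        rw [if_neg]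
        intro e'
        exact h.1 (List.mem_map.2 ⟨x, hx, e'.trans e.symm⟩)
      simp [e, this]
    · simpa [e] using ih h.2

variable {ι : Type}

theorem nodup_ψ {D : ℕ} {z : ℕ → GI} (hz : Walk D z) (F : Fam ι) (j : ι) {τ b : ℕ}
    (hb : 2 * (D * b) ^ 2 < F.p j) (l : List ℕ) (hl : l.Nodup) (h : ∀ x ∈ l, τ ≤ x ∧ x < τ + b) :
    (l.map (fun x => F.ψ j (z x))).Nodup := by
  refine List.Nodup.map_on (fun x hx y hy e => ?_) hl
  by_contra hne
  have h0 : z x - z y ≠ 0 := sub_ne_zero.2 fun e => hne (hz.inj e)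
  have h1 := Int.le_of_dvd (dot_self_pos h0) (F.dvd_dot (j := j) (by rw [F.ψ_sub, e, sub_self]))
  obtain ⟨s1, s2⟩ := hz.disp' (h x hx).1 (h x hx).2.le (h y hy).1 (h y hy).2.le
  have h2 : (2 * ((D * b : ℕ) : ℤ) ^ 2) < F.p j := by exact_mod_cast hb
  have s3 := sq_le_sq' (abs_le.1 s1).1 (abs_le.1 s1).2
  have s4 := sq_le_sq' (abs_le.1 s2).1 (abs_le.1 s2).2
  unfold dot at h1
  nlinarith

/-- indicator that the root `τ` has many light classes -/
noncomputable def badI (F : Fam ι) (z : ℕ → GI) (T : Sampler) (β : ℝ) (j : ι) (τ : ℕ) : ℝ :=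
  if β * F.p j ≤ (light (leafK T τ) (fun t => F.ψ j (z t)) (1 / 340)).card then 1 else 0

theorem stageC_prime {D : ℕ} {z : ℕ → GI} (hz : Walk D z) (F : Fam ι) (j : ι)
    (hav : ∀ t, F.ψ j (z t) ≠ 0) (Tc : Sampler) (K : ℕ → Law ℕ) (h b s : ℕ) (hT : Good Tc h b)
    (hK : Span K s) (hh : 0 < h) (hb : 2 * (D * b) ^ 2 < F.p j) (hhp : h ≤ F.p j)
    (β : ℝ) (hβ : 0 < β) {T : Sampler} {n : ℕ} (hB : Built (Mark (Pre K Tc)) n T)
    (hn : exp (-(h / (340 * F.p j) * 2 ^ n)) ≤ β) (ν : Law ℕ) :
    (J T ν).Hc (fun w => F.ψ j (z w.1)) (shape z) ≤ log (F.p j) + log (2 * β) +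
      h / (170 * F.p j) * ν.E (fun τ => (T τ).E
        (fun a => (a.2.map (badI F z (Pre K Tc) β j)).sum)) := by
  have hp : (0 : ℝ) < F.p j := by exact_mod_cast (F.prime j).pos
  set a : ℝ := h / (340 * F.p j) with ha
  have ha0 : 0 ≤ a := by positivity
  have ha1 : a ≤ 1 / 2 := by
    have : (h : ℝ) ≤ F.p j := by exact_mod_cast hhp
    rw [ha, div_le_iff₀ (by positivity)]; linarith
  set bad := badI F z (Pre K Tc) β j with hbad
  have bad01 : ∀ τ, bad τ = 0 ∨ bad τ = 1 := fun τ => by
    simp only [hbad, badI]; split_ifs <;> simp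
  set ω : ℕ → ℝ := fun τ => 1 - a * bad τ with hω
  have hω0 : ∀ τ, 0 < ω τ := fun τ => by
    rcases bad01 τ with e | e <;> simp only [hω, e] <;> linarith
  set bb : ZMod (F.p j) → ℕ → ℝ := fun c τ => (1 - bad τ) *
    if c ∈ light (leafK (Pre K Tc) τ) (fun t => F.ψ j (z t)) (1 / 340) then 1 else 0 with hbb
  set φ : ZMod (F.p j) → ℕ → ℝ := fun c x => if F.ψ j (z x) = c then 0 else 1 with hφ
  have h0 : ∀ τ, (Mark (Pre K Tc) τ).All (fun a => a.2.length = 1) :=
    fun τ => all_map (all_true _ fun _ => rfl)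
  have bb0 : ∀ c τ, 0 ≤ bb c τ := fun c τ => by
    simp only [hbb]; rcases bad01 τ with e | e <;> rw [e] <;> split_ifs <;> norm_num
  have bb1 : ∀ c τ, bb c τ ≤ 1 := fun c τ => by
    simp only [hbb]; rcases bad01 τ with e | e <;> rw [e] <;> split_ifs <;> norm_num
  have cov : ∀ c τ, (T τ).E (fun a => (a.1.map (φ c)).prod * (a.2.map ω).prod) ≤
      β + (T τ).E (fun a => (a.2.map (bb c)).sum) / 2 ^ n := by
    intro c τ
    refine (hB.cov (φ c) ω (bb c) (1 - a) (fun x => by simp only [hφ]; split_ifs <;> norm_num)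
      (fun x => (hω0 x).le) (bb0 c) (bb1 c) (by linarith) (by linarith) h0 (fun t => ?_) τ).trans ?_
    · simp only [Mark, E_map, List.map_cons, List.map_nil, List.prod_cons, List.prod_nil, mul_one,
        List.sum_cons, List.sum_nil, add_zero, E_const, E_mul_const]
      have d1 : (Pre K Tc t).E (fun a => (a.1.map (φ c)).prod) ≤
          1 - h * (leafK (Pre K Tc) t).prob (fun t => F.ψ j (z t)) c := by
        unfold prob
        rw [E_leafK (hT.pre hK) hh, mul_div_cancel₀ _ (by exact_mod_cast hh.ne'),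
          ← E_const (Pre K Tc t) 1, ← E_sub]
        refine E_mono_all (all_bind (all_true _ fun t' => (hT t').mono fun a ha => ?_))
        simp only [E_const]
        convert prod_le_one_sub a.1 (fun x => F.ψ j (z x)) c (nodup_ψ hz F j hb _ ha.2.1 ha.2.2)
      have d2 := mul_nonneg (Nat.cast_nonneg (α := ℝ) h)
        (prob_nonneg (leafK (Pre K Tc) t) (fun t => F.ψ j (z t)) c)
      refine (mul_le_mul_of_nonneg_right d1 (hω0 t).le).trans ?_
      simp only [hω, hbb]
      rcases bad01 t with e | e <;> rw [e]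
      · split_ifs with hc
        · linarith
        · have d3 : 1 / 340 / (F.p j : ℝ) ≤ (leafK (Pre K Tc) t).prob (fun t => F.ψ j (z t)) c := by
            simpa [light] using hc
          have d4 := mul_le_mul_of_nonneg_left d3 (Nat.cast_nonneg (α := ℝ) h)
          have d5 : (h : ℝ) * (1 / 340 / F.p j) = a := by rw [ha]; field_simp
          linarith
      · nlinarith
    · have d1 : (1 - a) ^ 2 ^ n ≤ β := by
        refine le_trans ?_ hn
        rw [show -(a * 2 ^ n) = ((2 ^ n : ℕ) : ℝ) * (-a) by push_cast; ring, Real.exp_nat_mul]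
        exact pow_le_pow_left₀ (by linarith) (by linarith [Real.add_one_le_exp (-a)]) _
      have d2 : 0 ≤ (1 - a) ^ 2 ^ n := pow_nonneg (by linarith) _
      have d3 : 0 ≤ (T τ).E (fun a => (a.2.map (bb c)).sum) / 2 ^ n :=
        div_nonneg (E_nonneg fun a => list_sum_nonneg _ _ (bb0 c)) (by positivity)
      nlinarith
  have sbb : ∀ τ, ∑ c, bb c τ ≤ β * F.p j := fun τ => by
    simp only [hbb, ← Finset.mul_sum, Finset.sum_boole, Finset.filter_mem_eq_inter,
      Finset.univ_inter, hbad, badI]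
    split_ifs with hc
    · simp; positivity
    · simp only [sub_zero, one_mul]; exact (not_le.1 hc).le
  have cov2 : ∀ τ, (T τ).E (fun a => (∑ c, (a.1.map (φ c)).prod) * (a.2.map ω).prod) ≤
      2 * β * F.p j := by
    intro τ
    simp only [Finset.sum_mul, E_sum]
    refine (Finset.sum_le_sum fun c _ => cov c τ).trans ?_
    rw [Finset.sum_add_distrib, ← Finset.sum_div, ← E_sum]
    have d1 : (T τ).E (fun a => ∑ c, (a.2.map (bb c)).sum) ≤ 2 ^ n * (β * F.p j) := by
      refine E_le_const_all ((hB.marks h0 τ).mono fun a ha => ?_)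
      have := list_sum_le a.2 (fun t => ∑ c, bb c t) _ sbb
      rw [ha, list_sum_comm] at this
      exact_mod_cast this
    rw [← div_le_iff₀' (by positivity)] at d1
    simp only [Finset.sum_const, Finset.card_univ, ZMod.card, nsmul_eq_mul]
    linarith
  set U : List GI → Finset (ZMod (F.p j)) :=
    fun X => univ.filter (fun y => ∀ w ∈ X, y + F.ψ j w ≠ 0) with hU
  have g := Hc_le_E_log_card (J T ν) (fun w => F.ψ j (z w.1)) (shape z) (fun w => U (shape z w))
    (fun x y e => by rw [e]) (all_true _ fun w => by simp [hU, shape, F.ψ_sub, hav])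
  refine g.trans ?_
  have pw : ∀ τ (w : List ℕ × List ℕ), log (U (shape z (τ, w.1))).card ≤
      (log (F.p j) + log (2 * β) - 1) + 1 / (2 * β * F.p j) *
        ((∑ c, (w.1.map (φ c)).prod) * (w.2.map ω).prod) + 2 * a * (w.2.map bad).sum := by
    intro τ w
    have d1 : ((U (shape z (τ, w.1))).card : ℝ) = ∑ c, (w.1.map (φ c)).prod := by
      simp only [hφ, prod_ind, Finset.sum_boole]
      congr 1
      refine Finset.card_bij' (fun y _ => F.ψ j (z τ) - y) (fun y _ => F.ψ j (z τ) - y) ?_ ?_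
        (by simp) (by simp)
      · intro y hy
        simp only [hU, shape, Finset.mem_filter, Finset.mem_univ, true_and, List.mem_map,
          forall_exists_index, and_imp, forall_apply_eq_imp_iff₂, F.ψ_sub] at hy ⊢
        intro x hx e; exact hy x hx (by rw [e]; ring)
      · intro y hy
        simp only [hU, shape, Finset.mem_filter, Finset.mem_univ, true_and, List.mem_map,
          forall_exists_index, and_imp, forall_apply_eq_imp_iff₂, F.ψ_sub] at hy ⊢
        intro x hx e; exact hy x hx (by linear_combination e)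
    have d2 : (0 : ℝ) < (U (shape z (τ, w.1))).card := by
      exact_mod_cast Finset.card_pos.2 ⟨F.ψ j (z τ), by simp [hU, shape, F.ψ_sub, hav]⟩
    have d3 : ∀ l : List ℕ, 0 < (l.map ω).prod ∧ - log (l.map ω).prod ≤ 2 * a * (l.map bad).sum := by
      intro l
      induction l with
      | nil => simp
      | cons t l ih =>
        simp only [List.map_cons, List.prod_cons, List.sum_cons]
        refine ⟨mul_pos (hω0 t) ih.1, ?_⟩
        rw [Real.log_mul (hω0 t).ne' ih.1.ne']
        have : - log (ω t) ≤ 2 * a * bad t := by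
          rcases bad01 t with e | e <;> simp only [hω, e]
          · simp
          · have := Real.one_sub_inv_le_log_of_pos (x := 1 - a * 1) (by linarith)
            have c : (1 - a * 1)⁻¹ ≤ 1 + 2 * a := by
              rw [inv_le_iff_one_le_mul₀ (by linarith)]; nlinarith
            linarith
        linarith [ih.2]
    rw [← d1]
    have d4 := Real.log_le_sub_one_of_pos (x := 1 / (2 * β * F.p j) *
      ((U (shape z (τ, w.1))).card * (w.2.map ω).prod)) (by have := (d3 w.2).1; positivity)
    rw [Real.log_mul (by positivity) (by have := (d3 w.2).1; positivity),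
      Real.log_mul d2.ne' (d3 w.2).1.ne', one_div, Real.log_inv,
      Real.log_mul (by positivity) hp.ne'] at d4
    rw [one_div]
    linarith [(d3 w.2).2]
  simp only [J, E_bind, E_map]
  refine (E_mono fun τ => E_mono (pw τ)).trans ?_
  simp only [E_add, E_const, E_const_mul]
  have e1 : 1 / (2 * β * F.p j) * ν.E (fun τ => (T τ).E
      (fun a => (∑ c, (a.1.map (φ c)).prod) * (a.2.map ω).prod)) ≤ 1 := by
    rw [one_div, inv_mul_le_iff₀ (by positivity), mul_one]; exact E_le_const cov2
  have e2 : 2 * a = h / (170 * F.p j) := by rw [ha]; field_simp; ring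
  rw [e2]; linarith

end Vale.Agent.P015
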