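import Vale.Agent.P015.StageC2

/-! Iterated doubling, chains of rules, gain for a family of primes. -/

namespace Vale.Agent.P015

open Finset Real Vale.Agent.H15 Vale.Agent.H15.Law
open scoped Classical

noncomputable def Dn (b : ℕ) (T : Sampler) : ℕ → Sampler
  | 0 => T
  | q + 1 => Dbl (2 ^ q * b) (Dn b T q)

theorem Good.dn {T : Sampler} {m b : ℕ} (h : Good T m b) (q : ℕ) :
    Good (Dn b T q) (2 ^ q * m) (2 ^ q * b) := by
  induction q with
  | zero => simpa [Dn] using h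
  | succ q ih =>
    have := ih.dbl
    rwa [← mul_assoc, ← mul_assoc, ← pow_succ'] at this

theorem Built.dn {T0 T : Sampler} {n : ℕ} (h : Built T0 n T) (b q : ℕ) :
    Built T0 (n + q) (Dn b T q) := by
  induction q with
  | zero => exact h
  | succ q ih => exact Built.dbl _ _ _ ih

theorem lg_two_pow_mul (n q : ℕ) : lg (2 ^ q * n) ≤ lg n + 2 * q := by
  unfold lg
  have h1 : ((2 * ((2 ^ q * n : ℕ) : ℝ) + 1)) ≤ 2 ^ q * (2 * n + 1) := by
    have : (1 : ℝ) ≤ 2 ^ q := one_le_pow₀ (by norm_num)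
    push_cast; nlinarith
  refine (Real.log_le_log (by positivity) (pow_le_pow_left₀ (by positivity) h1 2)).trans ?_
  rw [mul_pow, Real.log_mul (by positivity) (by positivity), ← pow_mul, Real.log_pow]
  have := Real.log_two_lt_d9
  have : (0 : ℝ) ≤ q := Nat.cast_nonneg q
  push_cast; nlinarith

theorem lg_le {D n s : ℕ} (h : n ≤ 2 ^ s) : lg (D * n) ≤ lg D + 2 * s :=
  (lg_mono (by rw [mul_comm]; exact Nat.mul_le_mul_right _ h)).trans (lg_two_pow_mul D s)

theorem dn_bound (D : ℕ) (Φ : Sampler → Law ℕ → ℝ)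
    (hΦ : ∀ b T ν, Φ (Dbl b T) ν ≤ lg (D * b) + Φ T ν + Φ T (ν.map (· + b)))
    (Pr : Law ℕ → ℕ → Prop) (hs : ∀ ν l b, Pr ν l → Pr (ν.map (· + b)) (l + b))
    (hm : ∀ ν l l', Pr ν l → l ≤ l' → Pr ν l') (T : Sampler) (b L : ℕ) (c : ℝ)
    (h : ∀ ν, Pr ν L → Φ T ν ≤ c) (q : ℕ) : ∀ l ν, l + 2 ^ q * b ≤ L + b → Pr ν l →
      Φ (Dn b T q) ν ≤ 2 ^ q * (c + lg (D * b) + 2) - (lg (D * b) + 2 + 2 * q) := by
  induction q with
  | zero =>
    intro l ν h1 h2
    have := h ν (hm ν l L h2 (by omega))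
    simp only [Dn, pow_zero, one_mul, Nat.cast_zero]; linarith
  | succ q ih =>
    intro l ν h1 h2
    rw [pow_succ'] at h1
    have a1 := ih l ν (by nlinarith [Nat.zero_le (2 ^ q * b)]) h2
    have a2 := ih _ _ (by nlinarith) (hs ν l (2 ^ q * b) h2)
    have a3 := hΦ (2 ^ q * b) (Dn b T q) ν
    have a4 := lg_two_pow_mul (D * b) q
    rw [show 2 ^ q * (D * b) = D * (2 ^ q * b) by ring] at a4
    simp only [Dn]
    rw [pow_succ' (2 : ℝ)]; push_cast; linarith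

theorem dn_bound' (D : ℕ) (Φ : Sampler → Law ℕ → ℝ)
    (hΦ : ∀ b T ν, Φ (Dbl b T) ν ≤ lg (D * b) + Φ T ν + Φ T (ν.map (· + b)))
    (Pr : Law ℕ → ℕ → Prop) (hs : ∀ ν l b, Pr ν l → Pr (ν.map (· + b)) (l + b))
    (hm : ∀ ν l l', Pr ν l → l ≤ l' → Pr ν l') (T : Sampler) (b L : ℕ) (c : ℝ)
    (h : ∀ ν, Pr ν L → Φ T ν ≤ c) (q l : ℕ) (ν : Law ℕ) (h1 : l + 2 ^ q * b ≤ L + b)
    (h2 : Pr ν l) : Φ (Dn b T q) ν ≤ 2 ^ q * (c + lg (D * b) + 2) := by
  have := dn_bound D Φ hΦ Pr hs hm T b L c h q l ν h1 h2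
  have := lg_nonneg (D * b)
  have : (0 : ℝ) ≤ q := Nat.cast_nonneg q
  linarith

theorem dn_unit {D : ℕ} {z : ℕ → GI} (hz : Walk D z) (T : Sampler) (b q : ℕ) (c : ℝ)
    (h : ∀ ν, HS z T ν (fun _ => ()) ≤ c) (ν : Law ℕ) :
    HS z (Dn b T q) ν (fun _ => ()) ≤ 2 ^ q * (c + lg (D * b) + 2) :=
  dn_bound' D (fun T ν => HS z T ν (fun _ => ())) (fun b T ν => HS_dbl hz T b ν transl_unit)
    (fun _ _ => True) (fun _ _ _ _ => trivial) (fun _ _ _ _ _ => trivial) T b (2 ^ q * b) c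
    (fun ν _ => h ν) q 0 ν (by omega) trivial

noncomputable def chainK (z : ℕ → GI) (S : ℕ → ℕ) : ℕ → ℕ → Law ℕ
  | 0 => Law.pure
  | u + 1 => fun τ => (ruleK z (S u) τ).bind (chainK z S u)

theorem span_chain (z : ℕ → GI) (S : ℕ → ℕ) (U : ℕ) :
    Span (chainK z S U) (∑ v ∈ range U, S v) := by
  induction U with
  | zero => exact fun t => all_pure (by simp)
  | succ U ih => rw [Finset.sum_range_succ, add_comm _ (S U)]; exact (span_rule z _).bind ih

theorem prep_chain (z : ℕ → GI) (S : ℕ → ℕ) (U u : ℕ) (hu : u < U) : ∀ ν : Law ℕ,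
    Prep z (ν.bind (chainK z S U)) (S u) (∑ v ∈ range u, S v) := by
  induction U with
  | zero => omega
  | succ U ih =>
    intro ν
    rcases Nat.lt_succ_iff_lt_or_eq.1 hu with h | rfl
    · exact (ih h (ν.bind (ruleK z (S U)))).congr fun f => by simp [chainK]
    · have := (Prep.rule z ν (S u)).bind (span_chain z S u)
      rw [zero_add] at this
      exact this.congr fun f => by simp [chainK]

theorem chain_split (z : ℕ → GI) (S : ℕ → ℕ) (U t : ℕ) (ht : t ≤ U) : ∀ ν : Law ℕ,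
    ∃ ν' : Law ℕ, (ν.bind (chainK z S U)).Eqv (ν'.bind (chainK z S t)) := by
  induction U with
  | zero => intro ν; obtain rfl : t = 0 := by omega
            exact ⟨ν, Eqv.refl _⟩
  | succ U ih =>
    intro ν
    rcases Nat.le_succ_iff.1 ht with h | rfl
    · obtain ⟨ν', e⟩ := ih h (ν.bind (ruleK z (S U)))
      exact ⟨ν', Eqv.trans (fun f => by simp [chainK]) e⟩
    · exact ⟨ν, Eqv.refl _⟩

variable {ι : Type}

theorem Bd.congr [Fintype ι] {F : Fam ι} {z : ℕ → GI} {μ μ' : Law ℕ} {k : ℕ} {x : ℝ}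
    (h : Bd F z μ k x) (e : μ'.Eqv μ) : Bd F z μ' k x := by
  intro I hI
  have : Def F z μ' = Def F z μ := funext fun J => by unfold Def; rw [e.H_eq]
  rw [this]; exact h I hI

theorem Bd.mono [Fintype ι] {F : Fam ι} {z : ℕ → GI} {μ : Law ℕ} {k : ℕ} {x y : ℝ}
    (h : Bd F z μ k x) (e : x ≤ y) : Bd F z μ k y := fun I hI => (h I hI).trans (by gcongr)

theorem stageC_fam [Fintype ι] {D : ℕ} {z : ℕ → GI} (hz : Walk D z) (F : Fam ι) (P : ℕ)
    (hP : 0 < P) (hp : ∀ j, P ≤ F.p j ∧ F.p j ≤ 2 * P)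
    (hav : ∀ j t, F.ψ j (z t) ≠ 0) (Tc : Sampler) (K : ℕ → Law ℕ) (h b s : ℕ) (hT : Good Tc h b)
    (hK : Span K s) (hh : 0 < h) (hb : 2 * (D * b) ^ 2 < P) (hhp : h ≤ P)
    (β δ : ℝ) (hβ : 0 < β) {T : Sampler} {n : ℕ} (hB : Built (Mark (Pre K Tc)) n T)
    (hn : exp (-(h / (680 * P) * 2 ^ n)) ≤ β)
    (hbad : ∀ τ, ∑ j, badI F z (Pre K Tc) β j τ ≤ Fintype.card ι * δ)
    (ν : Law ℕ) (k : ℕ) (x : ℝ) (hx : Bd F z ν k x) (I : Finset ι) (hI : I.card = k)
    (hk : 0 < k) :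
    avg (fun J => HS z T ν (F.Ψ J)) I ≤ HS z T ν (fun _ => ()) +
      k * (log (2 * β) + x + h / (170 * P) * (2 ^ n * δ)) := by
  have hP' : (0 : ℝ) < P := by exact_mod_cast hP
  set c : ι → ℝ := fun j => ν.E (fun τ => (T τ).E
    (fun a => (a.2.map (badI F z (Pre K Tc) β j)).sum)) with hc
  have a1 : ∀ j, (J T ν).Hc (fun w => F.ψ j (z w.1)) (shape z) ≤ log (F.p j) + log (2 * β) +
      h / (170 * P) * c j := by
    intro j
    have p1 : (P : ℝ) ≤ F.p j := by exact_mod_cast (hp j).1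
    have p2 : (F.p j : ℝ) ≤ 2 * P := by exact_mod_cast (hp j).2
    refine (stageC_prime hz F j (hav j) Tc K h b s hT hK hh (hb.trans_le (hp j).1)
      (hhp.trans (hp j).1) β hβ hB (le_trans ?_ hn) ν).trans ?_
    · have : (h : ℝ) / (680 * P) ≤ h / (340 * F.p j) :=
        div_le_div_of_nonneg_left (Nat.cast_nonneg _) (by linarith) (by linarith)
      gcongr
    · have : 0 ≤ c j := E_nonneg fun τ => E_nonneg fun a => list_sum_nonneg _ _ fun t => by
        unfold badI; split_ifs <;> norm_num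
      gcongr
  have m1 : ((J T ν).map (fun w => w.1)).Eqv ν := fun f => by simp [J]
  have a2 : ∀ J' : Finset ι, J'.card = I.card → HS z T ν (F.Ψ J') ≤ (HS z T ν (fun _ => ()) +
      k * log (2 * β)) + Def F z ν J' + h / (170 * P) * ∑ j ∈ J', c j := by
    intro J' hJ
    have b1 := Hc_swap (J T ν) (shape z) (fun w => F.Ψ J' (z w.1))
    have b2 := Hc_le_sum (J T ν) (fun j w => F.ψ j (z w.1)) (shape z) J'
      (fun w => F.Ψ J' (z w.1)) fun _ _ h => (F.Ψ_eq_iff _ _ _).2 h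
    have b3 := Finset.sum_le_sum (s := J') fun j _ => a1 j
    rw [H_eq_of_map m1 (fun t => F.Ψ J' (z t))] at b1
    rw [HS_unit_eq]
    unfold Def HS
    simp only [Finset.sum_add_distrib, Finset.sum_const, nsmul_eq_mul, hJ, hI,
      ← Finset.mul_sum] at b3
    linarith
  refine (avg_mono a2).trans ?_
  have a3 := hx I hI
  have a4 := avg_sum c I
  unfold avg at a3 a4 ⊢
  rw [E_add, E_add, E_const, E_const_mul, a4, hI]
  have a5 : ∑ j, c j ≤ 2 ^ n * (Fintype.card ι * δ) := by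
    simp only [hc, ← E_sum]
    refine E_le_const fun τ => E_le_const_all ((hB.marks
      (fun τ => all_map (all_true _ fun _ => rfl)) τ).mono fun a ha => ?_)
    have := list_sum_le a.2 _ _ hbad
    rw [ha, list_sum_comm] at this
    exact_mod_cast this
  have h3 : (0 : ℝ) < Fintype.card ι := by
    exact_mod_cast hk.trans_le (hI ▸ Finset.card_le_univ I)
  have a6 : (k : ℝ) * (∑ j, c j) / Fintype.card ι ≤ k * (2 ^ n * δ) := by
    rw [div_le_iff₀ h3]; nlinarith [Nat.cast_nonneg (α := ℝ) k]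
  have a7 := mul_le_mul_of_nonneg_left a6 (show (0 : ℝ) ≤ h / (170 * P) by positivity)
  nlinarith

end Vale.Agent.P015
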