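import Vale.Agent.P015.StageD1

/-! The contraction along geometric scales and the marginal estimate. -/

namespace Vale.Agent.P015

open Finset Real Vale.Agent.H15 Vale.Agent.H15.Law
open scoped Classical

variable {ι : Type}

theorem A_pow [Fintype ι] {D : ℕ} {z : ℕ → GI} (hz : Walk D z) (hD : 1 ≤ D)
    (F : Fam ι) (P Λ M k c t : ℕ) (hP : 2 ≤ P) (hp : ∀ j, P ≤ F.p j ∧ F.p j ≤ 2 * P)
    (hΛ : 2 * P ≤ 2 ^ Λ) (hΛ3 : 3 ≤ Λ) (hM : 1 ≤ M) (hk : 1 ≤ k)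
    (hr : M ^ (t + 1) * k ≤ Fintype.card ι)
    (hC : log (2050 * D ^ 2) + 3 * lg D + 6 * c + 2 ≤ 2 * Λ * k) (μ : Law ℕ)
    (hμ : ∀ u < t, Prep z μ (2 ^ (8 * Λ * (M ^ (u + 1) * k))) (2 ^ (8 * Λ * (M ^ u * k) + c))) :
    Bd F z μ (M * k) (Λ / 2 ^ t + 54 * Λ / M) := by
  have hM' : (1 : ℝ) ≤ M := by exact_mod_cast hM
  have hl : log (2 * P) ≤ Λ := by
    have h1 : (2 * P : ℝ) ≤ 2 ^ Λ := by exact_mod_cast hΛ
    have h2 : (2 : ℝ) ≤ P := by exact_mod_cast hP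
    refine (Real.log_le_log (by linarith) h1).trans ?_
    rw [Real.log_pow]
    have := Real.log_two_lt_d9
    nlinarith [Nat.cast_nonneg (α := ℝ) Λ]
  have e : ∀ u, M ^ u * (M * k) = M ^ (u + 1) * k := fun u => by ring
  have := stageA_iter hz hD F P M hP hp hM μ (27 * Λ / M) (by positivity) t (M * k)
    (fun u => 2 ^ (8 * Λ * (M ^ (u + 1) * k))) (fun u => 2 ^ (8 * Λ * (M ^ u * k) + c))
    (by rw [e]; exact hr) (fun u hu => ⟨hμ u hu, ?_, ?_⟩)
  · refine this.mono ?_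
    have : log (2 * P) / 2 ^ t ≤ Λ / 2 ^ t := by gcongr
    have e2 : 2 * (27 * (Λ : ℝ) / M) = 54 * Λ / M := by ring
    linarith
  · rw [e]
    have h0 : 1 ≤ M ^ (u + 1) * k := Nat.mul_pos (by positivity) hk
    generalize M ^ (u + 1) * k = k' at *
    have h1 : (2 * P) ^ (2 * k') ≤ 2 ^ (Λ * (2 * k')) := by
      rw [pow_mul 2 Λ]; exact Nat.pow_le_pow_left hΛ _
    have h2 : 1 ≤ 2 ^ (Λ * (2 * k')) := Nat.one_le_two_pow
    calc _ ≤ (2 ^ 6 * 2 ^ (Λ * (2 * k'))) ^ 2 := Nat.pow_le_pow_left (by omega) 2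
      _ = 2 ^ ((6 + Λ * (2 * k')) * 2) := by rw [← pow_add, ← pow_mul]
      _ ≤ _ := Nat.pow_le_pow_right (by norm_num) (by nlinarith)
  · have h0 : k ≤ M ^ u * k := Nat.le_mul_of_pos_left _ (by positivity)
    have h1 : M * (M * (M ^ u * k)) ≤ Fintype.card ι := by
      refine le_trans ?_ hr
      rw [show M * (M * (M ^ u * k)) = M ^ (u + 2) * k by ring]
      exact Nat.mul_le_mul_right _ (Nat.pow_le_pow_right hM (by omega))
    rw [e, show M ^ (u + 1) * k = M * (M ^ u * k) by ring]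
    generalize M ^ u * k = k' at *
    have h2 : k' ≤ M * k' := Nat.le_mul_of_pos_left _ hM
    have a1 := lg_le (D := D) (le_refl (2 ^ (8 * Λ * k' + c)))
    have a2 := lg_le (D := D) (n := 2 ^ (8 * Λ * (M * k')) + 2 ^ (8 * Λ * k' + c))
      (s := 8 * Λ * (M * k') + c + 1) (by
        have b1 : 2 ^ (8 * Λ * (M * k')) ≤ 2 ^ (8 * Λ * (M * k') + c) :=
          Nat.pow_le_pow_right (by norm_num) (by omega)
        have b2 : 2 ^ (8 * Λ * k' + c) ≤ 2 ^ (8 * Λ * (M * k') + c) :=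
          Nat.pow_le_pow_right (by norm_num) (by nlinarith)
        rw [pow_succ]; omega)
    have h0' : (k : ℝ) ≤ k' := by exact_mod_cast h0
    have hk' : (1 : ℝ) ≤ k := by exact_mod_cast hk
    have h1' : (M : ℝ) * (M * k') ≤ Fintype.card ι := by exact_mod_cast h1
    have hΛ' : (0 : ℝ) ≤ Λ := Nat.cast_nonneg _
    have a3 : 4 * ((M * k' : ℕ) : ℝ) ^ 2 / Fintype.card ι * log (2 * P) ≤ 4 * k' * Λ := by
      refine mul_le_mul ?_ hl (Real.log_nonneg ?_) (by positivity)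
      · have hk2 : (0 : ℝ) < k' := by linarith
        have hM2 : (0 : ℝ) < M := by linarith
        rw [div_le_iff₀ (lt_of_lt_of_le (by positivity) h1')]; push_cast; nlinarith
      · have h2 : (2 : ℝ) ≤ P := by exact_mod_cast hP
        linarith
    have a4 : lg (D * (2 ^ (8 * Λ * (M * k')) + 2 ^ (8 * Λ * k' + c))) / M ≤
        lg D + 2 * c + 2 + 16 * Λ * k' := by
      rw [div_le_iff₀ (by linarith)]
      refine a2.trans ?_
      push_cast
      nlinarith [lg_nonneg D, Nat.cast_nonneg (α := ℝ) c]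
    have a5 : 2 * ((M * k' : ℕ) : ℝ) * (27 * Λ / M) = 54 * Λ * k' := by
      push_cast; field_simp; ring
    rw [a5]
    push_cast at a1
    nlinarith

theorem sum_scales_le (Λ M u : ℕ) (hΛ : 1 ≤ Λ) (hM : 2 ≤ M) :
    ∑ v ∈ range u, 2 ^ (8 * Λ * M ^ (v + 1)) ≤ 2 ^ (8 * Λ * M ^ u + 1) := by
  induction u with
  | zero => simp
  | succ u ih =>
    rw [Finset.sum_range_succ]
    have h0 : 1 ≤ M ^ u := Nat.one_le_pow _ _ (by omega)
    have h1 : 2 ^ (8 * Λ * M ^ u + 1) ≤ 2 ^ (8 * Λ * M ^ (u + 1)) := by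
      refine Nat.pow_le_pow_right (by norm_num) ?_
      rw [pow_succ]; nlinarith [Nat.mul_le_mul hΛ h0]
    rw [pow_succ 2 (8 * Λ * M ^ (u + 1))]; omega

theorem margin [Fintype ι] {D : ℕ} {z : ℕ → GI} (hz : Walk D z) (hD : 1 ≤ D)
    (F : Fam ι) (P Λ M t uB : ℕ) (hP : 2 ≤ P) (hp : ∀ j, P ≤ F.p j ∧ F.p j ≤ 2 * P)
    (hΛ : 2 * P ≤ 2 ^ Λ) (hΛ3 : 3 ≤ Λ) (hM : 2 ≤ M) (hr : M ^ (uB + t + 1) ≤ Fintype.card ι)
    (hC : log (2050 * D ^ 2) + 3 * lg D + 14 ≤ 2 * Λ)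
    (hx : (Λ : ℝ) / 2 ^ t + 54 * Λ / M ≤ 1 / 4500)
    (Tc : Sampler) (h b : ℕ) (hT : Good Tc h b) (hh : 0 < h) (hb : b ≤ 2 ^ (8 * Λ))
    (β : ℝ) (m : ℕ) (hβ : 1 ≤ β * P) (hm1 : 16 ≤ m * β) (hm2 : m * β ≤ 17)
    (hm3 : m * (lg D + 2 * (8 * Λ * M ^ t + 2 : ℕ)) ≤ M ^ (uB + 1) / 40) (τ : ℕ) :
    ∑ j, badI F z (Pre (chainK z (fun v => 2 ^ (8 * Λ * M ^ (v + 1))) (uB + t)) Tc) β j τ ≤
      Fintype.card ι * (1 / 20) := by
  set S : ℕ → ℕ := fun v => 2 ^ (8 * Λ * M ^ (v + 1)) with hS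
  have sl : ∀ u, ∑ v ∈ range u, S v + b ≤ 2 ^ (8 * Λ * M ^ u + 2) := by
    intro u
    have h1 := sum_scales_le Λ M u (by omega) hM
    have h0 : 1 ≤ M ^ u := Nat.one_le_pow _ _ (by omega)
    have h2 : 2 ^ (8 * Λ) ≤ 2 ^ (8 * Λ * M ^ u + 1) :=
      Nat.pow_le_pow_right (by norm_num) (by nlinarith)
    rw [pow_succ 2 (8 * Λ * M ^ u + 1)]
    simp only [hS]; omega
  have hL := span_leafK hT hh
  have hA : ∀ (u0 U : ℕ) (ν : Law ℕ), u0 + t ≤ U → U ≤ uB + t →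
      Bd F z ((ν.bind (chainK z S U)).bind (leafK Tc)) (M ^ (u0 + 1)) (1 / 4500) := by
    intro u0 U ν h1 h2
    have h0 : 1 ≤ M ^ u0 := Nat.one_le_pow _ _ (by omega)
    have := A_pow hz hD F P Λ M (M ^ u0) 2 t hP hp hΛ hΛ3 (by omega) h0 (by
        rw [← pow_add]; exact (Nat.pow_le_pow_right (by omega) (by omega)).trans hr) (by
        have : (1 : ℝ) ≤ (M ^ u0 : ℕ) := by exact_mod_cast h0
        push_cast at this ⊢; nlinarith [Nat.cast_nonneg (α := ℝ) Λ])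
      ((ν.bind (chainK z S U)).bind (leafK Tc)) (fun u hu => by
        have := ((prep_chain z S U (u + u0) (by omega) ν).bind hL).mono (sl _)
        rw [← pow_add, ← pow_add, show u + 1 + u0 = u + u0 + 1 by ring]
        exact this)
    rw [← pow_succ'] at this
    exact this.mono hx
  obtain ⟨ν', hν⟩ := chain_split z S (uB + t) t (by omega) (Law.pure τ)
  set K1 : ℕ → Law ℕ := fun τ => (chainK z S t τ).bind (leafK Tc) with hK1
  have e1 : (ν'.bind K1).Eqv (((Law.pure τ).bind (chainK z S (uB + t))).bind (leafK Tc)) :=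
    fun f => by rw [E_bind (Law.bind _ _), hν]; simp [hK1]
  have e2 : (leafK (Pre (chainK z S (uB + t)) Tc) τ).Eqv (ν'.bind K1) :=
    Eqv.trans (fun f => by simp [leafK, Pre]) e1.symm
  have hr1 : M ^ (0 + 1) ≤ Fintype.card ι := (Nat.pow_le_pow_right (by omega) (by omega)).trans hr
  have hr2 : M ^ (uB + 1) ≤ Fintype.card ι := (Nat.pow_le_pow_right (by omega) (by omega)).trans hr
  have := stageB hz F ν' K1 _ m (M ^ (uB + 1)) (((span_chain z S t).bind hL).mono (sl t)) β (1 / 4500)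
    (fun j => hβ.trans (by
      have : (P : ℝ) ≤ F.p j := by exact_mod_cast (hp j).1
      have h0 : (0 : ℝ) ≤ P := Nat.cast_nonneg _
      have : 0 ≤ β := by by_contra hc; nlinarith
      gcongr)) hm1 hm2 (by positivity) hr2
    (fun τ => ((hA 0 t (Law.pure τ) (by omega) (by omega)).congr (μ' := K1 τ)
      (fun f => by simp [hK1])).sum_le (by positivity) hr1)
    ((hA uB (uB + t) (Law.pure τ) le_rfl le_rfl).congr e1)
  have e3 : ∀ j, badI F z (Pre (chainK z S (uB + t)) Tc) β j τ = if β * F.p j ≤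
      (light (ν'.bind K1) (fun t => F.ψ j (z t)) (1 / 340)).card then (1 : ℝ) else 0 := by
    intro j; unfold badI light; simp only [e2.prob_eq]
  simp only [e3]
  have a1 := mul_le_mul_of_nonneg_left (lg_le (D := D) (le_refl (2 ^ (8 * Λ * M ^ t + 2))))
    (Nat.cast_nonneg (α := ℝ) m)
  have a2 : (m : ℝ) * lg (D * 2 ^ (8 * Λ * M ^ t + 2)) / (M ^ (uB + 1) : ℕ) ≤ 1 / 40 := by
    rw [div_le_iff₀ (by positivity)]; push_cast at *; linarith
  have a3 := mul_le_mul_of_nonneg_left a2 (Nat.cast_nonneg (α := ℝ) (Fintype.card ι))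
  nlinarith

end Vale.Agent.P015
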