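import Vale.Agent.P015.StageD2

/-! One batch of scales. -/

namespace Vale.Agent.P015

open Finset Real Vale.Agent.H15 Vale.Agent.H15.Law
open scoped Classical

def RichFam (z : ℕ → GI) (P r : ℕ) : Prop :=
  ∃ F : Fam (Fin r), (∀ j, P ≤ F.p j ∧ F.p j ≤ 2 * P) ∧ ∀ j t, F.ψ j (z t) ≠ 0

noncomputable def Lv (z : ℕ → GI) (S : ℕ → ℕ) (q : ℕ) (T0 : Sampler) : ℕ → Sampler
  | 0 => T0
  | u + 1 => Dn (2 * S u) (Pre (ruleK z (S u)) (Lv z S q T0 u)) q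

def bv (S : ℕ → ℕ) (q b0 : ℕ) : ℕ → ℕ
  | 0 => b0
  | u + 1 => 2 ^ q * (2 * S u)

def PrL (z : ℕ → GI) (S b : ℕ → ℕ) (n j : ℕ) (ν : Law ℕ) (l : ℕ) : Prop :=
  ∀ u, j ≤ u → u < n → ∃ l', Prep z ν (S u) l' ∧ l' + b j ≤ b u + l

theorem good_Lv {z : ℕ → GI} {S : ℕ → ℕ} {q b0 m0 : ℕ} {T0 : Sampler} (h : Good T0 m0 b0)
    (hb : ∀ u, bv S q b0 u ≤ S u) (u : ℕ) : Good (Lv z S q T0 u) ((2 ^ q) ^ u * m0) (bv S q b0 u) := by
  induction u with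
  | zero => simpa [Lv, bv] using h
  | succ u ih =>
    have := ((ih.pre (span_rule z (S u))).mono (b' := 2 * S u) (by have := hb u; omega)).dn q
    rwa [← mul_assoc, ← pow_succ'] at this

theorem built_Lv {z : ℕ → GI} {S : ℕ → ℕ} {q w0 : ℕ} {TB T0 : Sampler} (h : Built TB w0 T0)
    (u : ℕ) : Built TB (w0 + q * u) (Lv z S q T0 u) := by
  induction u with
  | zero => exact h
  | succ u ih =>
    rw [mul_add, mul_one, ← add_assoc]
    exact (Built.pre _ _ _ ih).dn _ q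

theorem level_step {D : ℕ} {z : ℕ → GI} (S : ℕ → ℕ) (q b0 n j : ℕ) (T0 : Sampler)
    (hb : ∀ u, bv S q b0 u ≤ S u) (Φ : Sampler → Law ℕ → ℝ)
    (hΦ : ∀ b T ν, Φ (Dbl b T) ν ≤ lg (D * b) + Φ T ν + Φ T (ν.map (· + b)))
    (hΦ' : ∀ K s T ν, Span K s → Φ (Pre K T) ν ≤ lg (D * s) + Φ T (ν.bind K)) (c : ℝ)
    (h : ∀ ν, PrL z S (bv S q b0) n j ν 0 → Φ (Lv z S q T0 j) ν ≤ c) (ν : Law ℕ)
    (hν : PrL z S (bv S q b0) n (j + 1) ν 0) :
    Φ (Lv z S q T0 (j + 1)) ν ≤ 2 ^ q * (lg (D * S j) + c + lg (D * (2 * S j)) + 2) := by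
  have h0 : 2 * S j ≤ 2 ^ q * (2 * S j) := Nat.le_mul_of_pos_left _ (by positivity)
  refine dn_bound' D Φ hΦ (PrL z S (bv S q b0) n (j + 1)) ?_ ?_ _ (2 * S j)
    (2 ^ q * (2 * S j) - 2 * S j) _ ?_ q 0 ν (by omega) hν
  · intro ν l b H u h1 h2
    obtain ⟨l', a1, a2⟩ := H u h1 h2
    exact ⟨l' + b, a1.shift b, by omega⟩
  · intro ν l l'' H hl u h1 h2
    obtain ⟨l', a1, a2⟩ := H u h1 h2
    exact ⟨l', a1, by omega⟩
  · intro ν H
    refine (hΦ' _ _ _ _ (span_rule z (S j))).trans (add_le_add le_rfl (h _ fun u h1 h2 => ?_))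
    rcases h1.eq_or_lt with rfl | h1
    · exact ⟨0, Prep.rule _ _ _, by omega⟩
    · obtain ⟨l', a1, a2⟩ := H u h1 h2
      refine ⟨l' + S j, a1.bind (span_rule z _), ?_⟩
      have := hb j
      have e : bv S q b0 (j + 1) = 2 ^ q * (2 * S j) := rfl
      omega

theorem levels {D : ℕ} {z : ℕ → GI} (hz : Walk D z) (q Λ kk b0 n : ℕ) (T0 : Sampler)
    (hb : ∀ u, bv (fun u => 2 ^ (8 * Λ * ((2 ^ q) ^ u * kk))) q b0 u ≤
      2 ^ (8 * Λ * ((2 ^ q) ^ u * kk))) (hkk : 1 ≤ kk) (hC : 2 * lg D + 4 ≤ Λ) (R : Finset ℕ)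
    (G E0 : ℝ) (h0 : ∀ ν, HS z T0 ν (fun _ => ()) ≤ E0)
    (hR : ∀ i ∈ R, ∃ (r : ℕ) (F : Fam (Fin r)) (I : Finset (Fin r)),
      (∀ J : Finset (Fin r), J.card = I.card →
        ∑ j ∈ J, log (F.p j) ≤ 2 ^ q * ((2 ^ q) ^ i * kk) * Λ) ∧
      ∀ ν, PrL z (fun u => 2 ^ (8 * Λ * ((2 ^ q) ^ u * kk)))
        (bv (fun u => 2 ^ (8 * Λ * ((2 ^ q) ^ u * kk))) q b0) n i ν 0 →
        avg (fun J => HS z (Lv z (fun u => 2 ^ (8 * Λ * ((2 ^ q) ^ u * kk))) q T0 i) ν (F.Ψ J)) I ≤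
        HS z (Lv z (fun u => 2 ^ (8 * Λ * ((2 ^ q) ^ u * kk))) q T0 i) ν (fun _ => ()) -
          2 ^ q * ((2 ^ q) ^ i * kk) * G) (j : ℕ) :
    ∀ ν, PrL z (fun u => 2 ^ (8 * Λ * ((2 ^ q) ^ u * kk)))
        (bv (fun u => 2 ^ (8 * Λ * ((2 ^ q) ^ u * kk))) q b0) n j ν 0 →
      HS z (Lv z (fun u => 2 ^ (8 * Λ * ((2 ^ q) ^ u * kk))) q T0 j) ν (fun _ => ()) ≤
      (2 ^ q) ^ j * (E0 + kk * (34 * Λ * j - 2 ^ q * G * ∑ i ∈ range j, if i ∈ R then 1 else 0)) := by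
  set S : ℕ → ℕ := fun u => 2 ^ (8 * Λ * ((2 ^ q) ^ u * kk)) with hS
  induction j with
  | zero => intro ν _; simpa [Lv] using h0 ν
  | succ j ih =>
    intro ν hν
    have a1 : lg (D * S j) ≤ lg D + 2 * ((8 * Λ * ((2 ^ q) ^ j * kk) : ℕ) : ℝ) := lg_le le_rfl
    have a2 : lg (D * (2 * S j)) ≤ lg D + 2 * ((8 * Λ * ((2 ^ q) ^ j * kk) + 1 : ℕ) : ℝ) :=
      lg_le (by simp only [hS]; rw [pow_succ'])
    push_cast at a1 a2
    have a3 : (1 : ℝ) ≤ (2 ^ q) ^ j * kk := by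
      have : 1 ≤ (2 ^ q) ^ j * kk := Nat.mul_pos (by positivity) hkk
      exact_mod_cast this
    have hΛ : (0 : ℝ) ≤ Λ := Nat.cast_nonneg _
    have a4 : lg (D * S j) + lg (D * (2 * S j)) + 2 ≤ 33 * Λ * ((2 ^ q) ^ j * kk) := by nlinarith
    have hQ : (0 : ℝ) < 2 ^ q := by positivity
    rw [Finset.sum_range_succ, pow_succ']
    push_cast
    by_cases hj : j ∈ R
    · obtain ⟨r, F, I, c1, c2⟩ := hR j hj
      have := level_step (D := D) S q b0 n j T0 hb (fun T ν => avg (fun J => HS z T ν (F.Ψ J)) I)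
        (fun b T ν => by
          refine (avg_mono fun J _ => HS_dbl hz T b ν (transl_Ψ F J)).trans (le_of_eq ?_)
          unfold avg; rw [E_add, E_add, E_const])
        (fun K s T ν hK => by
          refine (avg_mono fun J _ => HS_pre hz T K s hK ν (transl_Ψ F J)).trans (le_of_eq ?_)
          unfold avg; rw [E_add, E_const]) _
        (fun ν hν => (c2 ν hν).trans (sub_le_sub_right (ih ν hν) _)) ν hν
      have c3 : avg (fun _ => HS z (Lv z S q T0 (j + 1)) ν (fun _ => ())) I ≤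
          avg (fun J => HS z (Lv z S q T0 (j + 1)) ν (F.Ψ J) + 2 ^ q * ((2 ^ q) ^ j * kk) * Λ) I :=
        avg_mono fun J hJ => (HS_unit_le F J z _ ν).trans (add_le_add le_rfl (c1 J hJ))
      unfold avg at c3 this
      rw [E_add, E_const, E_const] at c3
      rw [if_pos hj]
      nlinarith [mul_le_mul_of_nonneg_left a4 hQ.le]
    · have := level_step (D := D) S q b0 n j T0 hb (fun T ν => HS z T ν (fun _ => ()))
        (fun b T ν => HS_dbl hz T b ν transl_unit)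
        (fun K s T ν hK => HS_pre hz T K s hK ν transl_unit) _ ih ν hν
      rw [if_neg hj]
      have : 0 ≤ 2 ^ q * (Λ * ((2 ^ q) ^ j * kk : ℝ)) := by positivity
      nlinarith [mul_le_mul_of_nonneg_left a4 hQ.le]

end Vale.Agent.P015
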