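import Vale.Agent.P015.StageE1

/-! The batch lemma with abstract parameters. -/

namespace Vale.Agent.P015

open Finset Real Vale.Agent.H15 Vale.Agent.H15.Law
open scoped Classical

theorem log_le_of_pow {p P Λ : ℕ} (h0 : 0 < p) (h1 : p ≤ 2 * P) (h2 : 2 * P ≤ 2 ^ Λ) :
    log p ≤ Λ := by
  have h3 : (p : ℝ) ≤ 2 ^ Λ := by exact_mod_cast h1.trans h2
  refine (Real.log_le_log (by exact_mod_cast h0) h3).trans ?_
  rw [Real.log_pow]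
  have := Real.log_two_lt_d9
  nlinarith [Nat.cast_nonneg (α := ℝ) Λ]

theorem gain_le (s : ℕ) (hs : 20 ≤ s) (x : ℝ) (hx : x ≤ s / 10) :
    log (2 * (1 / 2 ^ s)) + x + 1024 * s / 170 * (1 / 20) ≤ -(s / 4) := by
  have h1 : log (2 * (1 / 2 ^ s) : ℝ) = log 2 - s * log 2 := by
    rw [Real.log_mul (by norm_num) (by positivity), one_div, Real.log_inv, Real.log_pow]; ring
  have h2 := Real.log_two_gt_d9
  have h3 := Real.log_two_lt_d9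
  have h4 : (20 : ℝ) ≤ s := by exact_mod_cast hs
  rw [h1]; nlinarith

theorem exp_le_half_pow (s : ℕ) : exp (-(1024 * s / 680 : ℝ)) ≤ 1 / 2 ^ s := by
  have h1 : (1 / 2 ^ s : ℝ) = exp (-(s * log 2)) := by
    rw [Real.exp_neg, ← Real.log_pow, Real.exp_log (by positivity), one_div]
  rw [h1, Real.exp_le_exp]
  have h3 := Real.log_two_lt_d9
  nlinarith [Nat.cast_nonneg (α := ℝ) s]

theorem rich_level {D : ℕ} {z : ℕ → GI} (hz : Walk D z) (hD : 1 ≤ D)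
    (q Λ kk n s w0 M t uB P0 i h b b0 r : ℕ) (Tc T0 : Sampler) (gc : Good Tc h b) (h0 : 0 < h)
    (hB : Built (Mark (Pre (chainK z (fun v => 2 ^ (8 * Λ * M ^ (v + 1))) (uB + t)) Tc)) w0 T0)
    (hq : 1 ≤ q) (hM : 2 ≤ M) (hkk : M ^ (uB + t + 1) ≤ kk)
    (hC : log (2050 * D ^ 2) + 3 * lg D + 6 * q + 14 ≤ Λ)
    (hx : (Λ : ℝ) / 2 ^ t + 54 * Λ / M ≤ 1 / 4500) (hx' : 550 * Λ ≤ s * 2 ^ q) (hs : 20 ≤ s)
    (hb : 2 * (D * b) ^ 2 < P0) (hbΛ : b ≤ 2 ^ (8 * Λ)) (hh : h ≤ P0) (hsP : 2 ^ s ≤ P0)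
    (hm0 : 2 ^ w0 * h = 1024 * s * P0)
    (hm3 : (16 * 2 ^ s : ℕ) * (lg D + 2 * (8 * Λ * M ^ t + 2 : ℕ)) ≤ M ^ (uB + 1) / 40)
    (hin : i + q + 1 ≤ n) (hPΛ : 2 * ((2 ^ q) ^ i * P0) ≤ 2 ^ Λ)
    (hr : (2 ^ q) ^ (q + 1) * ((2 ^ q) ^ i * kk) = r) (F : Fam (Fin r))
    (hp : ∀ j, (2 ^ q) ^ i * P0 ≤ F.p j ∧ F.p j ≤ 2 * ((2 ^ q) ^ i * P0))
    (hav : ∀ j t, F.ψ j (z t) ≠ 0) :
    ∃ (r : ℕ) (F : Fam (Fin r)) (I : Finset (Fin r)),
      (∀ J : Finset (Fin r), J.card = I.card →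
        ∑ j ∈ J, log (F.p j) ≤ 2 ^ q * ((2 ^ q) ^ i * kk) * Λ) ∧
      ∀ ν, PrL z (fun u => 2 ^ (8 * Λ * ((2 ^ q) ^ u * kk)))
        (bv (fun u => 2 ^ (8 * Λ * ((2 ^ q) ^ u * kk))) q b0) n i ν 0 →
        avg (fun J => HS z (Lv z (fun u => 2 ^ (8 * Λ * ((2 ^ q) ^ u * kk))) q T0 i) ν (F.Ψ J)) I ≤
        HS z (Lv z (fun u => 2 ^ (8 * Λ * ((2 ^ q) ^ u * kk))) q T0 i) ν (fun _ => ()) -
          2 ^ q * ((2 ^ q) ^ i * kk) * (s / 4) := by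
  have hlg := lg_nonneg D
  have hD' : (1 : ℝ) ≤ D := by exact_mod_cast hD
  have hlog : 0 ≤ log (2050 * (D : ℝ) ^ 2) := Real.log_nonneg (by nlinarith)
  have hq0 : (0 : ℝ) ≤ q := Nat.cast_nonneg q
  have hΛ14 : 14 ≤ Λ := by
    have : (14 : ℝ) ≤ Λ := by linarith
    exact_mod_cast this
  have hkk1 : 1 ≤ kk := (Nat.one_le_pow _ _ (by omega)).trans hkk
  set S : ℕ → ℕ := fun u => 2 ^ (8 * Λ * ((2 ^ q) ^ u * kk)) with hS
  have hku : ∀ u, 1 ≤ (2 ^ q) ^ u * kk := fun u => Nat.mul_pos (by positivity) hkk1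
  have ebv : ∀ u, bv S q b0 (u + 1) = 2 ^ (8 * Λ * ((2 ^ q) ^ u * kk) + (q + 1)) := by
    intro u
    simp only [bv, hS]; ring
  have hQ1 : 1 ≤ 2 ^ q := Nat.one_le_two_pow
  have hQi : 1 ≤ (2 ^ q) ^ i := Nat.one_le_pow _ _ (by omega)
  have hPi : P0 ≤ (2 ^ q) ^ i * P0 := Nat.le_mul_of_pos_left _ hQi
  have hs2 : 2 ≤ 2 ^ s := by
    calc 2 = 2 ^ 1 := rfl
      _ ≤ 2 ^ s := Nat.pow_le_pow_right (by norm_num) (by omega)
  have hle : 2 ^ q * ((2 ^ q) ^ i * kk) ≤ r :=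
    hr ▸ Nat.mul_le_mul_right _ (by rw [pow_succ']; exact Nat.le_mul_of_pos_right _ (by positivity))
  obtain ⟨I, -, hI⟩ := Finset.exists_subset_card_eq (s := (univ : Finset (Fin r)))
    (n := 2 ^ q * ((2 ^ q) ^ i * kk)) (by rw [card_univ, Fintype.card_fin]; exact hle)
  refine ⟨_, F, I, fun J hJ => ?_, fun ν hν => ?_⟩
  · refine (Finset.sum_le_card_nsmul _ _ (Λ : ℝ) fun j _ =>
      log_le_of_pow (F.prime j).pos (hp j).2 hPΛ).trans (le_of_eq ?_)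
    rw [hJ, hI, nsmul_eq_mul]; push_cast; ring
  have hBd := A_pow hz hD F _ Λ (2 ^ q) ((2 ^ q) ^ i * kk) (q + 1) q (by omega) hp hPΛ (by omega)
    (by omega) (hku i) (by rw [Fintype.card_fin, hr]) (by
      have : (1 : ℝ) ≤ (((2 ^ q) ^ i * kk : ℕ) : ℝ) := by exact_mod_cast hku i
      have : (0 : ℝ) ≤ Λ := Nat.cast_nonneg _
      rw [Nat.cast_add, Nat.cast_one]
      nlinarith) ν (fun u hu => by
      obtain ⟨l', a1, a2⟩ := hν (i + u + 1) (by omega) (by omega)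
      have e1 : (2 ^ q) ^ (u + 1) * ((2 ^ q) ^ i * kk) = (2 ^ q) ^ (i + u + 1) * kk := by ring
      have e2 : (2 ^ q) ^ u * ((2 ^ q) ^ i * kk) = (2 ^ q) ^ (i + u) * kk := by ring
      rw [e1, e2, ← ebv]
      exact a1.mono (by omega))
  have hP' : (0 : ℝ) < P0 := by exact_mod_cast (by omega : 0 < P0)
  have hm0' : (2 : ℝ) ^ w0 * (h : ℝ) = 1024 * s * P0 := by exact_mod_cast hm0
  have e3 : (h : ℝ) / (((2 ^ q) ^ i * P0 : ℕ) : ℝ) * 2 ^ (w0 + q * i) = 1024 * s := by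
    rw [pow_add, pow_mul, Nat.cast_mul ((2 ^ q) ^ i)]
    push_cast at hm0' ⊢
    field_simp
    linarith
  have hbad := margin hz hD F _ Λ M t uB (by omega) hp hPΛ (by omega) hM
    (by
      rw [Fintype.card_fin]
      refine hkk.trans (le_trans ?_ hle)
      calc kk = 1 * (1 * kk) := by ring
        _ ≤ _ := Nat.mul_le_mul (by omega) (Nat.mul_le_mul_right _ hQi))
    (by have : (0 : ℝ) ≤ Λ := Nat.cast_nonneg _
        linarith) hx Tc _ _ gc h0 hbΛ (1 / 2 ^ s) (16 * 2 ^ s)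
    (by
      have : (2 : ℝ) ^ s ≤ (((2 ^ q) ^ i * P0 : ℕ) : ℝ) := by exact_mod_cast hsP.trans hPi
      rw [one_div, inv_mul_eq_div, le_div_iff₀ (by positivity)]; linarith)
    (by push_cast; field_simp; norm_num) (by push_cast; field_simp; norm_num) hm3
  have hC := stageC_fam hz F _ (by omega) hp hav Tc _ _ _ _ gc (span_chain z _ _) h0
    (hb.trans_le hPi) (hh.trans hPi) (1 / 2 ^ s) (1 / 20) (by positivity) (built_Lv (z := z) (S := S) (q := q) hB i)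
    (by
      refine le_trans (le_of_eq ?_) (exp_le_half_pow s)
      rw [← e3]; congr 1; ring) hbad ν _ _ hBd I hI (by rw [← hI]; have := hku i; rw [hI]; positivity)
  refine hC.trans ?_
  have g1 := gain_le s hs ((Λ : ℝ) / 2 ^ q + 54 * Λ / ((2 ^ q : ℕ) : ℝ)) (by
    have : (550 * Λ : ℝ) ≤ s * 2 ^ q := by exact_mod_cast hx'
    push_cast
    rw [← add_div, div_le_div_iff₀ (by positivity) (by norm_num)]; linarith)
  have e4 : (h : ℝ) / (170 * (((2 ^ q) ^ i * P0 : ℕ) : ℝ)) *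
      (2 ^ (w0 + q * i) * (1 / 20)) = 1024 * s / 170 * (1 / 20) := by
    rw [← e3]; ring
  rw [e4, sub_eq_add_neg, ← mul_neg]
  refine add_le_add le_rfl ?_
  push_cast
  push_cast at g1
  exact mul_le_mul_of_nonneg_left g1 (by positivity)


theorem batch {D : ℕ} {z : ℕ → GI} (hz : Walk D z) (hD : 1 ≤ D) (Tp : Sampler) (mp bp : ℕ)
    (Ep : ℝ) (hTp : Good Tp mp bp) (hmp : 0 < mp) (hEp : ∀ ν, HS z Tp ν (fun _ => ()) ≤ Ep)
    (q Λ kk n s w w0 M t uB P0 : ℕ) (R : Finset ℕ) (hq : 1 ≤ q) (hqΛ : q + 1 ≤ Λ)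
    (hM : 2 ≤ M) (hkk : M ^ (uB + t + 1) ≤ kk) (hw0 : w0 + 2 ≤ 4 * Λ)
    (hC : log (2050 * D ^ 2) + 3 * lg D + 6 * q + 14 ≤ Λ)
    (hx : (Λ : ℝ) / 2 ^ t + 54 * Λ / M ≤ 1 / 4500) (hx' : 550 * Λ ≤ s * 2 ^ q) (hs : 20 ≤ s)
    (hb : 2 * (D * (2 ^ w * bp)) ^ 2 < P0) (hh : 2 ^ w * mp ≤ P0) (hsP : 2 ^ s ≤ P0)
    (hP0 : P0 ≤ 2 ^ Λ)
    (hm0 : 2 ^ w0 * (2 ^ w * mp) = 1024 * s * P0)
    (hm3 : (16 * 2 ^ s : ℕ) * (lg D + 2 * (8 * Λ * M ^ t + 2 : ℕ)) ≤ M ^ (uB + 1) / 40)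
    (hR : ∀ i ∈ R, i + q + 1 ≤ n ∧ 2 * ((2 ^ q) ^ i * P0) ≤ 2 ^ Λ ∧
      RichFam z ((2 ^ q) ^ i * P0) ((2 ^ q) ^ (q + 1) * ((2 ^ q) ^ i * kk))) :
    ∃ T : Sampler, Good T ((2 ^ q) ^ n * (1024 * s * P0)) (2 ^ (8 * Λ * ((2 ^ q) ^ n * kk))) ∧
      ∀ ν, HS z T ν (fun _ => ()) ≤ (2 ^ q) ^ n *
        (2 ^ w0 * (2 ^ w * (Ep + lg (D * bp) + 2) +
          2 * (lg D + 2 * (8 * Λ * M ^ (uB + t) + 2 : ℕ)) + 2) +
          kk * (34 * Λ * n - 2 ^ q * (s / 4) * R.card)) := by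
  have hlg := lg_nonneg D
  have hD' : (1 : ℝ) ≤ D := by exact_mod_cast hD
  have hlog : 0 ≤ log (2050 * (D : ℝ) ^ 2) := Real.log_nonneg (by nlinarith)
  have hq0 : (0 : ℝ) ≤ q := Nat.cast_nonneg q
  have hΛ14 : 14 ≤ Λ := by
    have : (14 : ℝ) ≤ Λ := by linarith
    exact_mod_cast this
  have hQ2 : 2 ≤ 2 ^ q := by
    calc 2 = 2 ^ 1 := rfl
      _ ≤ 2 ^ q := Nat.pow_le_pow_right (by norm_num) hq
  have hMp : 1 ≤ M ^ (uB + t) := Nat.one_le_pow _ _ (by omega)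
  have hkk2 : 2 * M ^ (uB + t) ≤ kk := by
    refine le_trans ?_ hkk; rw [pow_succ]; nlinarith
  have hkk1 : 1 ≤ kk := by omega
  set Tc := Dn bp Tp w with hTc
  have gc : Good Tc (2 ^ w * mp) (2 ^ w * bp) := hTp.dn w
  set S' : ℕ → ℕ := fun v => 2 ^ (8 * Λ * M ^ (v + 1)) with hS'
  set K := chainK z S' (uB + t) with hK
  set sch := 2 ^ (8 * Λ * M ^ (uB + t) + 2) with hsch
  have hbΛ : 2 ^ w * bp ≤ 2 ^ (8 * Λ) := by
    have h1 : 2 ^ w * bp ≤ 2 * (D * (2 ^ w * bp)) ^ 2 := by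
      have : 2 ^ w * bp ≤ D * (2 ^ w * bp) := Nat.le_mul_of_pos_left _ hD
      nlinarith [Nat.le_self_pow (n := 2) (by norm_num) (D * (2 ^ w * bp))]
    have h2 : 2 ^ Λ ≤ 2 ^ (8 * Λ) := Nat.pow_le_pow_right (by norm_num) (by omega)
    omega
  have hspan : ∑ v ∈ range (uB + t), S' v + 2 ^ w * bp ≤ sch := by
    have h1 := sum_scales_le Λ M (uB + t) (by omega) hM
    have h2 : 2 ^ (8 * Λ) ≤ 2 ^ (8 * Λ * M ^ (uB + t) + 1) :=
      Nat.pow_le_pow_right (by norm_num) (by nlinarith)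
    rw [hsch, pow_succ 2 (_ + 1)]
    simp only [hS']
    omega
  set TB := Mark (Pre K Tc) with hTB
  have gB : Good TB (2 ^ w * mp) sch := ((gc.pre (span_chain z S' _)).mono hspan).mark
  set T0 := Dn sch TB w0 with hT0
  have g0 : Good T0 (1024 * s * P0) (2 ^ w0 * sch) := hm0 ▸ gB.dn w0
  have b0 : Built TB w0 T0 := by simpa using (Built.base (T0 := TB)).dn sch w0
  have lsch : lg (D * sch) ≤ lg D + 2 * ((8 * Λ * M ^ (uB + t) + 2 : ℕ) : ℝ) := lg_le le_rfl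
  have e0 : ∀ ν, HS z T0 ν (fun _ => ()) ≤ 2 ^ w0 * (2 ^ w * (Ep + lg (D * bp) + 2) +
      2 * (lg D + 2 * (8 * Λ * M ^ (uB + t) + 2 : ℕ)) + 2) := by
    intro ν
    refine (dn_unit hz TB sch w0 (lg (D * sch) + 2 ^ w * (Ep + lg (D * bp) + 2)) (fun ν => ?_)
      ν).trans (mul_le_mul_of_nonneg_left (by linarith) (by positivity))
    rw [hTB, HS_mark]
    refine (HS_pre hz Tc K sch ((span_chain z S' _).mono (by omega)) ν transl_unit).trans ?_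
    exact add_le_add le_rfl (dn_unit hz Tp bp w Ep hEp _)
  set S : ℕ → ℕ := fun u => 2 ^ (8 * Λ * ((2 ^ q) ^ u * kk)) with hS
  have hku : ∀ u, 1 ≤ (2 ^ q) ^ u * kk := fun u => Nat.mul_pos (by positivity) hkk1
  have ebv : ∀ u, bv S q (2 ^ w0 * sch) (u + 1) = 2 ^ (8 * Λ * ((2 ^ q) ^ u * kk) + (q + 1)) := by
    intro u
    simp only [bv, hS]; ring
  have hbv : ∀ u, bv S q (2 ^ w0 * sch) u ≤ S u := by
    intro u
    rcases u with _ | u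
    · simp only [bv, hS, hsch, ← pow_add, pow_zero, one_mul]
      exact Nat.pow_le_pow_right (by norm_num) (by nlinarith)
    · rw [ebv]
      refine Nat.pow_le_pow_right (by norm_num) ?_
      have := hku u
      rw [pow_succ', mul_assoc (2 ^ q)]
      generalize (2 ^ q) ^ u * kk = a at *
      nlinarith [Nat.mul_le_mul_left (Λ * a) hQ2, Nat.mul_le_mul_left Λ this]
  refine ⟨Lv z S q T0 n, (good_Lv g0 hbv n).mono (hbv n), fun ν => ?_⟩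
  have key := levels hz q Λ kk (2 ^ w0 * sch) n T0 hbv hkk1 (by linarith) R (s / 4) _ e0 ?_ n ν
    (fun u h1 h2 => absurd h2 (by omega))
  · refine key.trans (le_of_eq ?_)
    rw [Finset.sum_boole, Finset.filter_mem_eq_inter,
      Finset.inter_eq_right.2 (fun i hi => mem_range.2 (by have := (hR i hi).1; omega))]
  intro i hi
  obtain ⟨hin, hPΛ, F, hp, hav⟩ := hR i hi
  exact rich_level hz hD q Λ kk n s w0 M t uB P0 i _ _ _ _ Tc T0 gc (by positivity) b0 hq hM hkk hC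
    hx hx' hs hb hbΛ hh hsP hm0 hm3 hin hPΛ rfl F hp hav

end Vale.Agent.P015
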