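import Vale.Agent.P015.StageE2

/-! Concrete parameters: each batch lowers the potential by a fixed amount. -/

namespace Vale.Agent.P015

open Finset Real Vale.Agent.H15 Vale.Agent.H15.Law
open scoped Classical

noncomputable def scaleP (j : ℕ) : Finset ℕ :=
  (Ico (2 ^ j) (2 ^ (j + 1))).filter (fun p => p.Prime ∧ p % 4 = 1)

def Avoid (z : ℕ → GI) (X : ℕ) : Prop :=
  ∀ (p : ℕ) (r : ℤ), p.Prime → p ≤ X → (p : ℤ) ∣ r * r + 1 → ∀ t,
    (((z t).re + r * (z t).im : ℤ) : ZMod p) ≠ 0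

theorem Avoid.mono {z : ℕ → GI} {X Y : ℕ} (h : Avoid z X) (hY : Y ≤ X) : Avoid z Y :=
  fun p r h1 h2 => h p r h1 (h2.trans hY)

theorem exists_root {p : ℕ} (hp : p.Prime) (h4 : p % 4 = 1) : ∃ r : ℤ, (p : ℤ) ∣ r * r + 1 := by
  haveI := Fact.mk hp
  obtain ⟨a, ha⟩ := (ZMod.exists_sq_eq_neg_one_iff (p := p)).2 (by omega)
  refine ⟨(a.val : ℤ), (ZMod.intCast_zmod_eq_zero_iff_dvd _ p).1 ?_⟩
  push_cast
  rw [ZMod.natCast_zmod_val, ← ha]; ring

theorem richFam_of {z : ℕ → GI} {X j r : ℕ} (hav : Avoid z X) (hX : 2 ^ (j + 1) ≤ X)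
    (hr : r ≤ (scaleP j).card) : RichFam z (2 ^ j) r := by
  obtain ⟨A, hA, rfl⟩ := Finset.exists_subset_card_eq hr
  have hm : ∀ i : Fin A.card, (A.orderEmbOfFin rfl i) ∈ scaleP j :=
    fun i => hA (Finset.orderEmbOfFin_mem _ _ _)
  simp only [scaleP, mem_filter, mem_Ico] at hm
  choose ρ hρ using fun i => exists_root (hm i).2.1 (hm i).2.2
  refine ⟨⟨fun i => A.orderEmbOfFin rfl i, ρ, fun i => (hm i).2.1,
    (A.orderEmbOfFin rfl).injective, hρ⟩, fun i => ⟨(hm i).1.1, ?_⟩, fun i t => ?_⟩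
  · have := (hm i).1.2
    rw [pow_succ] at this
    simp only
    omega
  · exact hav _ _ (hm i).2.1 ((hm i).1.2.le.trans hX) (hρ i) t

theorem exists_g (C : ℕ) : ∃ g, 30 ≤ g ∧ 4 * g ^ 2 + 3 * g + C ≤ 2 ^ g := by
  have h : ∀ g, 10 ≤ g → g ^ 3 ≤ 2 ^ g := by
    intro g hg
    induction g, hg using Nat.le_induction with
    | base => norm_num
    | succ g hg ih => rw [pow_succ 2]; nlinarith [Nat.mul_le_mul hg hg, Nat.mul_le_mul_left (g * g) hg]
  refine ⟨C + 30, by omega, le_trans ?_ (h _ (by omega))⟩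
  nlinarith [Nat.zero_le (C ^ 3), Nat.zero_le (C ^ 2)]

theorem residue (y : ℕ) (A : Finset ℕ) (hA : ∀ j ∈ A, 16 * y ≤ j) (hc : 32 * y ≤ A.card) :
    ∃ (J1 : ℕ) (R : Finset ℕ), 16 * y ≤ J1 ∧ J1 < 16 * y + 32 ∧ y ≤ R.card ∧
      ∀ i ∈ R, J1 + 32 * i ∈ A := by
  obtain ⟨c, hc1, hc2⟩ := Finset.exists_le_card_fiber_of_mul_le_card_of_maps_to (s := A)
    (t := range 32) (f := fun j => (j - 16 * y) % 32) (n := y)
    (fun a _ => mem_range.2 (Nat.mod_lt _ (by norm_num))) (by simp) (by simpa using hc)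
  have hc3 := mem_range.1 hc1
  refine ⟨16 * y + c, (A.filter fun j => (j - 16 * y) % 32 = c).image (fun j => (j - 16 * y) / 32),
    by omega, by omega, ?_, ?_⟩
  · rw [Finset.card_image_of_injOn]
    · exact hc2
    · intro a ha b hb e
      simp only [coe_filter, Set.mem_setOf_eq] at ha hb e
      have := hA a ha.1; have := hA b hb.1
      omega
  · intro i hi
    obtain ⟨j, hj, rfl⟩ := Finset.mem_image.1 hi
    obtain ⟨h1, h2⟩ := mem_filter.1 hj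
    have := hA j h1
    have e : 16 * y + c + 32 * ((j - 16 * y) / 32) = j := by omega
    rwa [e]

theorem final_ineq (φ L y Z a b c Qn kk u lb R : ℝ) (ha : 0 < a) (hb : 0 < b) (hc : 0 < c)
    (hQ : 1 ≤ Qn) (hy : 1 ≤ y) (hZ : 0 < Z) (hkk : kk * (y ^ 2 * Z) = a * (b * c)) (hkk1 : 1 ≤ kk)
    (hL : L + 2 ≤ y) (hu : u * Z ≤ b * c) (hR : y ≤ R)
    (hlb : lb ≤ L + 2 * (8 * (4096 * y) * (Qn * kk))) :
    (Qn * (a * (b * φ + u) + kk * (34 * (4096 * y) * (128 * y + 33) - 2 ^ 32 * (y / 4) * R)) +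
      lb + 2) / (Qn * (a * (b * c))) ≤ φ / c - 1 / Z := by
  have h1 : lb + 2 ≤ Qn * (kk * (17 * 4096 * y)) := by
    have : 1 ≤ Qn * kk := by nlinarith
    nlinarith
  have h2 : 34 * (4096 * y) * (128 * y + 33) - 2 ^ 32 * (y / 4) * R + 17 * 4096 * y ≤
      -(2 * y ^ 2) := by nlinarith
  have h3 : kk * (34 * (4096 * y) * (128 * y + 33) - 2 ^ 32 * (y / 4) * R + 17 * 4096 * y) ≤
      kk * -(2 * y ^ 2) := mul_le_mul_of_nonneg_left h2 (by linarith)
  have h4 : kk * y ^ 2 = a * (b * c) / Z := by rw [eq_div_iff hZ.ne']; linarith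
  have h5 : a * u ≤ a * (b * c) / Z := by
    rw [le_div_iff₀ hZ, mul_assoc]; exact mul_le_mul_of_nonneg_left hu ha.le
  rw [div_le_iff₀ (by positivity)]
  have h6 : (φ / c - 1 / Z) * (Qn * (a * (b * c))) = Qn * (a * b * φ - a * (b * c) / Z) := by
    field_simp
  rw [h6]
  have h7 : a * (b * φ + u) + kk * (34 * (4096 * y) * (128 * y + 33) - 2 ^ 32 * (y / 4) * R) +
      kk * (17 * 4096 * y) ≤ a * b * φ - a * (b * c) / Z := by nlinarith
  nlinarith [mul_le_mul_of_nonneg_left h7 (by linarith : 0 ≤ Qn)]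

end Vale.Agent.P015
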