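import Vale.Agent.P015.StageF1

/-! The step lemma and its iteration. -/

namespace Vale.Agent.P015

open Finset Real Vale.Agent.H15 Vale.Agent.H15.Law
open scoped Classical

def RichMany : Prop := ∃ y0 : ℕ, ∀ y, y0 ≤ y →
  32 * y ≤ ((Ico (16 * y) (4096 * y)).filter fun j => 2 ^ j ≤ 2 ^ 24 * y * (scaleP j).card).card

theorem two_pow_le {a b : ℕ} (h : a ≤ b) : 2 ^ a ≤ 2 ^ b := Nat.pow_le_pow_right (by norm_num) h

theorem par_m3 (L : ℝ) (g y uB : ℕ) (hy : y = 2 ^ g) (hL : L + 2 ≤ y)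
    (h1 : 4 * g ^ 2 + 3 * g + 30 ≤ y) (h2 : 2 * y ≤ 2 * g * (uB + 1)) :
    (16 * 2 ^ y : ℕ) * (L + 2 * (8 * (4096 * y) * (2 ^ (2 * g)) ^ (2 * g) + 2 : ℕ)) ≤
      ((2 ^ (2 * g) : ℕ) : ℝ) ^ (uB + 1) / 40 := by
  have a1 : (2 ^ y * 2 ^ y : ℕ) ≤ (2 ^ (2 * g)) ^ (uB + 1) := by
    rw [← pow_mul, ← pow_add]; exact two_pow_le (by omega)
  have a2 : (2 ^ 27 * y * (2 ^ (2 * g)) ^ (2 * g) : ℕ) ≤ 2 ^ y := by
    rw [← pow_mul]; nth_rewrite 1 [hy]; rw [← pow_add, ← pow_add]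
    exact two_pow_le (by nlinarith)
  have a3 : 1 ≤ (2 ^ (2 * g)) ^ (2 * g) := Nat.one_le_pow _ _ (by positivity)
  have a4 : 30 ≤ y := by omega
  generalize (2 ^ (2 * g)) ^ (2 * g) = W at *
  have b1 : ((2 ^ y * 2 ^ y : ℕ) : ℝ) ≤ ((2 ^ (2 * g) : ℕ) : ℝ) ^ (uB + 1) := by exact_mod_cast a1
  have b2 : ((2 ^ 27 * y * W : ℕ) : ℝ) ≤ ((2 ^ y : ℕ) : ℝ) := by exact_mod_cast a2
  have b3 : (1 : ℝ) ≤ W := by exact_mod_cast a3
  have b4 : (30 : ℝ) ≤ y := by exact_mod_cast a4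
  refine le_trans ?_ (div_le_div_of_nonneg_right b1 (by norm_num))
  push_cast at b2 ⊢
  have b5 : (0 : ℝ) < 2 ^ y := by positivity
  have b6 : 16 * (L + 2 * (8 * (4096 * y) * W + 2)) ≤ 2 ^ y / 40 := by nlinarith
  nlinarith [mul_le_mul_of_nonneg_left b6 b5.le]

theorem par_u (L : ℝ) (e g y uB : ℕ) (he : e = 1090) (hy : y = 2 ^ g) (hL : L + 2 ≤ y)
    (h1 : 4 * g ^ 2 + 3 * g + 1110 ≤ y) (h2 : 2 * g * uB ≤ 2 * y) :
    (2 * (L + 2 * (8 * (4096 * y) * (2 ^ (2 * g)) ^ (uB + 2 * g) + 2 : ℕ)) + 2) * 2 ^ e ≤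
      (2 : ℝ) ^ (6 * y) := by
  have a2 : (2 ^ 18 * y * (2 ^ (2 * g)) ^ (uB + 2 * g) * 2 ^ e : ℕ) ≤ 2 ^ (6 * y) := by
    rw [← pow_mul]; nth_rewrite 1 [hy]; rw [← pow_add, ← pow_add, ← pow_add]
    exact two_pow_le (by nlinarith)
  have a3 : 1 ≤ (2 ^ (2 * g)) ^ (uB + 2 * g) := Nat.one_le_pow _ _ (by positivity)
  have a4 : 30 ≤ y := by omega
  generalize (2 ^ (2 * g)) ^ (uB + 2 * g) = W at *
  have b2 : ((2 ^ 18 * y * W * 2 ^ e : ℕ) : ℝ) ≤ ((2 ^ (6 * y) : ℕ) : ℝ) := by exact_mod_cast a2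
  have b3 : (1 : ℝ) ≤ W := by exact_mod_cast a3
  have b4 : (30 : ℝ) ≤ y := by exact_mod_cast a4
  clear he a2
  push_cast at b2 ⊢
  refine le_trans (mul_le_mul_of_nonneg_right ?_ (by positivity)) b2
  nlinarith

theorem step (hrich : RichMany) (e : ℕ) (he : e = 1090) (D : ℕ) (hD : 1 ≤ D) (μ bp : ℕ) :
    ∃ μ' b' X : ℕ, ∀ z, Walk D z → Avoid z X → ∀ (Tp : Sampler) (Ep : ℝ), Good Tp (2 ^ μ) bp →
      (∀ ν, HS z Tp ν (fun _ => ()) ≤ Ep) → ∃ (T : Sampler) (E : ℝ), Good T (2 ^ μ') b' ∧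
        (∀ ν, HS z T ν (fun _ => ()) ≤ E) ∧
        (E + lg (D * b') + 2) / 2 ^ μ' ≤ (Ep + lg (D * bp) + 2) / 2 ^ μ - 1 / 2 ^ e := by
  obtain ⟨y0, hy0⟩ := hrich
  obtain ⟨c1, hc1⟩ := exists_nat_ge (log (2050 * D ^ 2) + 3 * lg D + 300)
  obtain ⟨g, hg, hgy⟩ := exists_g (1110 + y0 + c1 + μ + 2 * (D * bp) ^ 2)
  obtain ⟨y, hy⟩ : ∃ y, y = 2 ^ g := ⟨_, rfl⟩
  rw [← hy] at hgy
  obtain ⟨J1, R, j1, j2, j3, j4⟩ := residue y _ (fun j hj => (mem_Ico.1 (mem_filter.1 hj).1).1)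
    (hy0 y (by omega))
  obtain ⟨w, hw⟩ : ∃ w, w + μ = 6 * y := ⟨6 * y - μ, by omega⟩
  obtain ⟨w0, hw0⟩ : ∃ w0, w0 + 6 * y = 10 + g + J1 := ⟨10 + g + J1 - 6 * y, by omega⟩
  obtain ⟨κ, hκ⟩ : ∃ κ, κ + g + e = J1 + 10 := ⟨J1 + 10 - g - e, by omega⟩
  have u1 : y / g * g ≤ y := Nat.div_mul_le_self _ _
  have u2 : y < y / g * g + g := Nat.lt_div_mul_add (by omega)
  generalize y / g = uB at u1 u2
  have hlg := lg_nonneg D
  have hD' : (1 : ℝ) ≤ D := by exact_mod_cast hD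
  have hlog : 0 ≤ log (2050 * (D : ℝ) ^ 2) := Real.log_nonneg (by nlinarith)
  have hc1y : (c1 : ℝ) ≤ y := by exact_mod_cast (by omega : c1 ≤ y)
  have hL : lg D + 2 ≤ y := by linarith
  have hy30 : 2 ^ 30 ≤ y := hy ▸ two_pow_le hg
  have hy30' : (2 : ℝ) ^ 30 ≤ y := by exact_mod_cast hy30
  have hh : 2 ^ w * 2 ^ μ = 2 ^ (6 * y) := by rw [← pow_add, hw]
  have hm : 1024 * y * 2 ^ J1 = 2 ^ (10 + g + J1) := by rw [hy]; ring
  refine ⟨32 * (128 * y + 33) + (10 + g + J1),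
    2 ^ (8 * (4096 * y) * ((2 ^ 32) ^ (128 * y + 33) * 2 ^ κ)), 2 ^ (4096 * y),
    fun z hz hav Tp Ep hTp hEp => ?_⟩
  obtain ⟨T, hT, hE⟩ := batch hz hD Tp (2 ^ μ) bp Ep hTp (by positivity) hEp 32 (4096 * y) (2 ^ κ)
    (128 * y + 33) y w w0 (2 ^ (2 * g)) (2 * g) uB (2 ^ J1) R (by norm_num) (by omega)
    (le_trans (by norm_num) (two_pow_le (by omega : 1 ≤ 2 * g)))
    (by rw [← pow_mul]; exact two_pow_le (by nlinarith)) (by omega)
    (by push_cast; linarith)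
    (by
      have : (2 : ℝ) ^ (2 * g) = y * y := by rw [hy]; push_cast; ring
      push_cast
      rw [this, ← add_div, div_le_div_iff₀ (by positivity) (by norm_num)]
      nlinarith)
    (by omega) (by omega)
    (by
      have a1 : 2 * (D * bp) ^ 2 < 2 ^ y := (by omega : _ ≤ y).trans_lt Nat.lt_two_pow_self
      have a2 : 2 ^ y * (2 ^ w) ^ 2 ≤ 2 ^ J1 := by
        rw [← pow_mul, ← pow_add]; exact two_pow_le (by omega)
      calc 2 * (D * (2 ^ w * bp)) ^ 2 = 2 * (D * bp) ^ 2 * (2 ^ w) ^ 2 := by ring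
        _ < 2 ^ y * (2 ^ w) ^ 2 := Nat.mul_lt_mul_of_pos_right a1 (by positivity)
        _ ≤ _ := a2)
    (hh ▸ two_pow_le (by omega)) (two_pow_le (by omega)) (two_pow_le (by omega))
    (by rw [hh, hm, ← pow_add, hw0])
    (par_m3 _ g y uB hy hL (by omega) (by nlinarith))
    (fun i hi => by
      obtain ⟨h1, h2⟩ := mem_filter.1 (j4 i hi)
      have h3 := (mem_Ico.1 h1).2
      have e1 : (2 ^ 32) ^ i * 2 ^ J1 = 2 ^ (J1 + 32 * i) := by rw [← pow_mul, ← pow_add, add_comm]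
      rw [e1]
      refine ⟨by omega, by rw [← pow_succ']; exact two_pow_le h3,
        richFam_of hav (two_pow_le h3) ?_⟩
      refine Nat.le_of_mul_le_mul_left (le_trans (le_of_eq ?_) h2) (by positivity)
      rw [hy]
      simp only [← pow_mul, ← pow_add]
      congr 1; omega)
  refine ⟨T, _, by rw [pow_add 2 (32 * _), pow_mul, ← hm]; exact hT, hE, ?_⟩
  have lb := lg_le (D := D) (le_refl (2 ^ (8 * (4096 * y) * ((2 ^ 32) ^ (128 * y + 33) * 2 ^ κ))))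
  have key := final_ineq (Ep + lg (D * bp) + 2) (lg D) y (2 ^ e) (2 ^ w0) (2 ^ w) (2 ^ μ)
    ((2 ^ 32) ^ (128 * y + 33)) (2 ^ κ) _ _ R.card (by positivity) (by positivity) (by positivity)
    (one_le_pow₀ (by norm_num)) (by linarith) (by positivity)
    (by
      rw [hy]; push_cast
      simp only [← pow_mul, ← pow_add]
      congr 1; omega)
    (one_le_pow₀ (by norm_num)) hL
    ((par_u _ e g y uB he hy hL (by omega) (by nlinarith)).trans (by rw [← pow_add, hw]))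
    (by exact_mod_cast j3) (lb.trans (le_of_eq (by push_cast; norm_num)))
  refine le_trans (le_of_eq ?_) key
  clear key lb hE hT he
  congr 1
  · push_cast; ring
  · simp only [← pow_mul, ← pow_add]
    congr 1; omega

theorem no_walk (hrich : RichMany) (D : ℕ) (hD : 1 ≤ D) :
    ∃ X : ℕ, ∀ z, Walk D z → ¬ Avoid z X := by
  obtain ⟨e, he⟩ : ∃ e : ℕ, e = 1090 := ⟨_, rfl⟩
  have hs := step hrich e he D hD
  clear he
  have it : ∀ N : ℕ, ∃ μ b X : ℕ, ∀ z, Walk D z → Avoid z X → ∃ (T : Sampler) (E : ℝ),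
      Good T (2 ^ μ) b ∧ (∀ ν, HS z T ν (fun _ => ()) ≤ E) ∧
        (E + lg (D * b) + 2) / 2 ^ μ ≤ lg D + 2 - N / 2 ^ e := by
    intro N
    induction N with
    | zero =>
      refine ⟨0, 1, 0, fun z _ _ => ⟨fun τ => Law.pure ([τ], []), 0, fun τ => all_pure (by simp),
        fun ν => ?_, by simp⟩⟩
      rw [HS_unit_eq]
      have := H_le_log_card (J (fun τ => Law.pure ([τ], [])) ν) (shape z) {[0]}
        (all_bind (all_true _ fun τ => all_map (all_pure (by simp [shape]))))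
      simpa using this
    | succ N ih =>
      obtain ⟨μ, b, X, h⟩ := ih
      obtain ⟨μ', b', X', h'⟩ := hs μ b
      refine ⟨μ', b', max X X', fun z hz hav => ?_⟩
      obtain ⟨T, E, h1, h2, h3⟩ := h z hz (hav.mono (le_max_left _ _))
      obtain ⟨T', E', h4, h5, h6⟩ := h' z hz (hav.mono (le_max_right _ _)) T E h1 h2
      refine ⟨T', E', h4, h5, h6.trans ?_⟩
      push_cast
      rw [add_div (N : ℝ)]; linarith
  obtain ⟨N, hN⟩ := exists_nat_gt ((lg D + 2) * 2 ^ e)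
  obtain ⟨μ, b, X, h⟩ := it N
  refine ⟨X, fun z hz hav => ?_⟩
  obtain ⟨T, E, -, h2, h3⟩ := h z hz hav
  have a1 := (HS_nonneg z T (Law.pure 0) _).trans (h2 _)
  have a2 := lg_nonneg (D * b)
  have a3 : 0 ≤ (E + lg (D * b) + 2) / 2 ^ μ := by positivity
  rw [← lt_div_iff₀ (by positivity)] at hN
  linarith

end Vale.Agent.P015
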